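import Vale.Agent.P202.CharP.ArbK.Defs
import Vale.Agent.P202.CharP.FlatX
import Vale.Agent.P202.CharZero.MM

/-!
P202-AK-4: flatness over power series rings from a regular sequence; powers of the variables
form a regular sequence; the Frobenius of a power series ring and the Frobenius of the
coefficients are flat.
-/

namespace Vale.Agent.P202.CharP.ArbK

open IsLocalRing TensorProduct MvPowerSeries

/-- TASK AK-4: flatness over power series rings from a regular sequence. -/
theorem flat_of_regular_powerSeries {K : Type*} [Field K] {v : ℕ} {M : Type*} [CommRing M]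
    [IsLocalRing M] [IsNoetherianRing M] [Algebra (MvPowerSeries (Fin v) K) M]
    (hx : ∀ i : Fin v, algebraMap (MvPowerSeries (Fin v) K) M (X i) ∈ maximalIdeal M)
    (hreg : RingTheory.Sequence.IsWeaklyRegular M
      (List.ofFn fun i : Fin v => algebraMap (MvPowerSeries (Fin v) K) M (X i))) :
    Module.Flat (MvPowerSeries (Fin v) K) M := by
  have hmax : (Ideal.span (Set.range X) : Ideal (MvPowerSeries (Fin v) K)).IsMaximal := by
    have h1 : (Ideal.span (Set.range X) : Ideal (MvPowerSeries (Fin v) K)) =
        maximalIdeal (MvPowerSeries (Fin v) K) := (CZ.maximalIdeal_eq (σ := Fin v) (K := K)).symm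
    rw [h1]
    infer_instance
  refine flat_of_maximal_injective (Ideal.span (Set.range X)) ?_ ?_
  · rw [Ideal.map_span, Ideal.span_le]
    rintro _ ⟨_, ⟨l, rfl⟩, rfl⟩
    exact hx l
  · exact lTensor_inj_of_regular (fun l : Fin v => (X l : MvPowerSeries (Fin v) K)) hreg

/-- the ideal generated by the `q`-th powers of some variables, coefficientwise. -/
lemma mem_span_X_pow_iff {K : Type*} [CommRing K] {v : ℕ} (q : ℕ) (i : ℕ)
    (f : MvPowerSeries (Fin v) K) :
    f ∈ Ideal.span ((fun l : Fin v => (X l : MvPowerSeries (Fin v) K) ^ q) '' {l | (l : ℕ) < i}) ↔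
      ∀ d : Fin v →₀ ℕ, (∀ j : Fin v, (j : ℕ) < i → d j < q) → coeff d f = 0 := by
  classical
  constructor
  · intro hf
    refine Submodule.span_induction (p := fun f _ => ∀ d : Fin v →₀ ℕ,
      (∀ j : Fin v, (j : ℕ) < i → d j < q) → coeff d f = 0) ?_ ?_ ?_ ?_ hf
    · rintro _ ⟨l, hl, rfl⟩ d hd
      simp only [Set.mem_ofPred_eq] at hl
      rw [coeff_X_pow, if_neg]
      intro h
      have := hd l hl
      rw [h] at this
      simp at this
    · intro d _
      exact map_zero _
    · intro x y _ _ hx hy d hd
      rw [map_add, hx d hd, hy d hd, add_zero]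
    · intro a x _ hx d hd
      rw [smul_eq_mul, coeff_mul]
      refine Finset.sum_eq_zero ?_
      rintro ⟨a1, a2⟩ ha
      rw [Finset.HasAntidiagonal.mem_antidiagonal] at ha
      have h2 : coeff a2 x = 0 := by
        apply hx
        intro j hj
        have h3 := hd j hj
        have h4 : a1 j + a2 j = d j := by rw [← ha]; rfl
        simp only at *
        omega
      simp only
      rw [h2, mul_zero]
  · intro hf
    by_cases hv : ∃ l : Fin v, True
    swap
    · have hd0 : ∀ d : Fin v →₀ ℕ, ∀ j : Fin v, (j : ℕ) < i → d j < q := by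
        intro d j
        exact absurd ⟨j, trivial⟩ hv
      have : f = 0 := by
        ext d
        rw [hf d (hd0 d), map_zero]
      rw [this]
      exact zero_mem _
    obtain ⟨l0, -⟩ := hv
    -- choice of an index
    have hex : ∀ d : Fin v →₀ ℕ, ∃ j : Fin v,
        (∃ j' : Fin v, (j' : ℕ) < i ∧ q ≤ d j') → ((j : ℕ) < i ∧ q ≤ d j) := by
      intro d
      by_cases h : ∃ j' : Fin v, (j' : ℕ) < i ∧ q ≤ d j'
      · obtain ⟨j', hj'⟩ := h
        exact ⟨j', fun _ => hj'⟩
      · exact ⟨l0, fun h' => absurd h' h⟩
    choose cf hcf using hex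
    let g : Fin v → MvPowerSeries (Fin v) K := fun j γ =>
      if cf (γ + Finsupp.single j q) = j then coeff (γ + Finsupp.single j q) f else 0
    have key : f = ∑ j ∈ Finset.univ.filter (fun j : Fin v => (j : ℕ) < i),
        (X j : MvPowerSeries (Fin v) K) ^ q * g j := by
      ext β
      rw [map_sum]
      have h1 : ∀ j ∈ Finset.univ.filter (fun j : Fin v => (j : ℕ) < i),
          coeff β ((X j : MvPowerSeries (Fin v) K) ^ q * g j) =
          if (q ≤ β j ∧ cf β = j) then coeff β f else 0 := by
        intro j _
        rw [X_pow_eq, coeff_monomial_mul, one_mul]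
        by_cases hj : q ≤ β j
        · have hle : Finsupp.single j q ≤ β := by
            rw [Finsupp.single_le_iff]
            exact hj
          have h2 : coeff (β - Finsupp.single j q) (g j) =
              if cf β = j then coeff β f else 0 := by
            change g j (β - Finsupp.single j q) = _
            simp only [g, tsub_add_cancel_of_le hle]
          simp only [hle, hj, true_and, if_true, h2]
        · have hle : ¬ Finsupp.single j q ≤ β := by
            rw [Finsupp.single_le_iff]
            exact hj
          simp only [hle, hj, false_and, if_false]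
      rw [Finset.sum_congr rfl h1]
      by_cases hβ : ∃ j' : Fin v, (j' : ℕ) < i ∧ q ≤ β j'
      · obtain ⟨h3, h4⟩ := hcf β hβ
        rw [Finset.sum_eq_single (cf β)]
        · simp [h4]
        · intro j _ hne
          rw [if_neg]
          rintro ⟨_, h⟩
          exact hne h.symm
        · intro h
          exact absurd (by simpa using h3) h
      · have h5 : coeff β f = 0 := by
          apply hf
          intro j hj
          by_contra h6
          exact hβ ⟨j, hj, not_lt.mp h6⟩
        rw [h5, Finset.sum_eq_zero]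
        intro j _
        split_ifs <;> rfl
    rw [key]
    refine Ideal.sum_mem _ fun j hj => Ideal.mul_mem_right _ _ ?_
    rw [Finset.mem_filter] at hj
    exact Ideal.subset_span ⟨j, hj.2, rfl⟩

/-- TASK AK-4: powers of the variables form a regular sequence. -/
theorem isWeaklyRegular_X_pow (K : Type*) [Field K] (v : ℕ) (q : ℕ) (hq : 1 ≤ q) :
    RingTheory.Sequence.IsWeaklyRegular (MvPowerSeries (Fin v) K)
      (List.ofFn fun i : Fin v => (X i : MvPowerSeries (Fin v) K) ^ q) := by
  classical
  refine ⟨fun i hi => ?_⟩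
  have hiv : i < v := by simpa using hi
  have hid : (Ideal.ofList ((List.ofFn fun i : Fin v =>
      (X i : MvPowerSeries (Fin v) K) ^ q).take i)) =
      Ideal.span ((fun l : Fin v => (X l : MvPowerSeries (Fin v) K) ^ q) ''
        {l | (l : ℕ) < i}) := by
    rw [Ideal.ofList]
    congr 1
    ext a
    simp only [Set.mem_ofPred_eq, Set.mem_image]
    rw [List.mem_take_iff_getElem]
    constructor
    · rintro ⟨j, hj, rfl⟩
      simp only [List.length_ofFn, lt_inf_iff] at hj
      exact ⟨⟨j, by omega⟩, by simpa using hj.1, by simp⟩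
    · rintro ⟨j, hj, rfl⟩
      exact ⟨j, by simp; omega, by simp⟩
  rw [hid, isSMulRegular_on_quot_iff_lsmul_comap_le]
  intro f hf
  rw [Submodule.mem_comap] at hf
  simp only [List.getElem_ofFn, LinearMap.lsmul_apply, smul_eq_mul, Ideal.mul_top] at hf ⊢
  rw [mem_span_X_pow_iff] at hf ⊢
  intro d hd
  have h1 := hf (d + Finsupp.single ⟨i, hiv⟩ q) (by
    intro j hj
    have hne : (⟨i, hiv⟩ : Fin v) ≠ j := by
      rintro rfl
      exact lt_irrefl _ hj
    rw [Finsupp.add_apply, Finsupp.single_eq_of_ne hne.symm, add_zero]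
    exact hd j hj)
  rw [X_pow_eq, coeff_monomial_mul] at h1
  have hle : Finsupp.single (⟨i, hiv⟩ : Fin v) q ≤ d + Finsupp.single ⟨i, hiv⟩ q :=
    le_add_self
  rw [if_pos hle, add_tsub_cancel_right, one_mul] at h1
  exact h1

/-- TASK AK-4: the Frobenius of a power series ring is flat. -/
theorem flat_Fr_powerSeries (p : ℕ) [Fact p.Prime] (K : Type*) [Field K] [CharP K p]
    (v e : ℕ) [CharP (MvPowerSeries (Fin v) K) p] :
    Module.Flat (MvPowerSeries (Fin v) K) (Fr p (MvPowerSeries (Fin v) K) e) := by
  have hp : p ^ e ≠ 0 := pow_ne_zero _ (Fact.out : p.Prime).ne_zero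
  refine flat_of_regular_powerSeries ?_ ?_
  · intro i
    change (X i : MvPowerSeries (Fin v) K) ^ p ^ e ∈ maximalIdeal (MvPowerSeries (Fin v) K)
    refine Ideal.pow_mem_of_mem _ ?_ _ (Nat.pos_of_ne_zero hp)
    rw [CZ.maximalIdeal_eq, CZ.mm]
    exact Ideal.subset_span ⟨i, rfl⟩
  · exact isWeaklyRegular_X_pow K v (p ^ e) (Nat.one_le_iff_ne_zero.mpr hp)

/-- TASK AK-4: the Frobenius of the coefficients is flat. -/
theorem flat_PSc (p : ℕ) [Fact p.Prime] (n : ℕ) (k : Type*) [Field k] [CharP k p] (e : ℕ) :
    Module.Flat (MvPowerSeries (Fin n) k) (PSc p n k e) := by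
  have : IsLocalRing (PSc p n k e) := inferInstanceAs (IsLocalRing (MvPowerSeries (Fin n) k))
  have : IsNoetherianRing (PSc p n k e) :=
    inferInstanceAs (IsNoetherianRing (MvPowerSeries (Fin n) k))
  have hX : ∀ i : Fin n, algebraMap (MvPowerSeries (Fin n) k) (PSc p n k e) (X i) =
      toPSc p n k e (X i) := by
    intro i
    change cfrob p n k e (X i) = X i
    rw [cfrob, MvPowerSeries.map_X]
  refine flat_of_regular_powerSeries ?_ ?_
  · intro i
    rw [hX]
    change (X i : MvPowerSeries (Fin n) k) ∈ maximalIdeal (MvPowerSeries (Fin n) k)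
    rw [CZ.maximalIdeal_eq, CZ.mm]
    exact Ideal.subset_span ⟨i, rfl⟩
  · simp only [hX]
    have h := isWeaklyRegular_X_pow k n 1 le_rfl
    simp only [pow_one] at h
    exact h

end Vale.Agent.P202.CharP.ArbK
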