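import Mathlib

/-!
P202-ARBK: every field of characteristic `p` is formally smooth over the prime field.
-/

namespace Vale.Agent.P202.CharP.ArbK

open Polynomial

universe u v

section fs

variable (p : ℕ) [hp : Fact p.Prime]

/-- sections of square-zero extensions of a field in characteristic `p`. -/
theorem exists_section_of_sq_zero {T : Type*} {k : Type*} [CommRing T] [CharP T p] [Field k]
    (π : T →+* k) (hπ : Function.Surjective π) (hN : ∀ a b, π a = 0 → π b = 0 → a * b = 0) :
    ∃ s : k →+* T, π.comp s = RingHom.id k := by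
  have hkp : CharP k p := by
    rw [CharP.charP_iff_prime_eq_zero hp.out]
    have h1 : ((p : ℕ) : T) = 0 := CharP.cast_eq_zero T p
    have h2 := congr(π $h1)
    rwa [map_natCast, map_zero] at h2
  have hN2 : ∀ a, π a = 0 → a ^ p = 0 := by
    intro a ha
    obtain ⟨m, hm⟩ := Nat.exists_eq_add_of_le hp.out.two_le
    rw [hm, pow_add, pow_two, hN a a ha ha, zero_mul]
  -- the set of subfields
  let F : Set (Subring T) := {G | IsField G ∧ ∀ t : T, t ^ p ∈ G}
  have hker : ∀ G ∈ F, ∀ a ∈ G, π a = 0 → a = 0 := by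
    intro G hG a ha h0
    by_contra hne
    obtain ⟨b, hb⟩ := hG.1.mul_inv_cancel (a := ⟨a, ha⟩) (fun h => hne congr(($h : T)))
    have h1 : a * (b : T) = 1 := congr(($hb : T))
    have h2 := congr(π $h1)
    rw [map_mul, h0, zero_mul, map_one] at h2
    exact zero_ne_one h2
  obtain ⟨G, -, hG⟩ : ∃ G, ((frobenius T p).range) ≤ G ∧ Maximal (· ∈ F) G := by
    refine zorn_le_nonempty₀ F ?_ _ ?_
    · intro c hc hchain y hy
      refine ⟨sSup c, ⟨⟨⟨0, 1, fun h => ?_⟩, mul_comm, ?_⟩, ?_⟩, fun z hz => le_sSup hz⟩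
      · have h1 : (0 : T) = 1 := congr(($h : T))
        have h2 := congr(π $h1)
        rw [map_zero, map_one] at h2
        exact zero_ne_one h2
      · rintro ⟨a, ha⟩ hne
        rw [← SetLike.mem_coe, Subring.coe_sSup_of_directedOn ⟨y, hy⟩ hchain.directedOn,
          Set.mem_iUnion₂] at ha
        obtain ⟨G, hG, ha⟩ := ha
        obtain ⟨b, hb⟩ := (hc hG).1.mul_inv_cancel (a := ⟨a, ha⟩) (fun h => hne (by
          have h1 : a = 0 := congr(($h : T))
          exact Subtype.ext h1))
        refine ⟨⟨b, le_sSup hG b.2⟩, ?_⟩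
        have h1 : a * (b : T) = 1 := congr(($hb : T))
        exact Subtype.ext h1
      · intro t
        exact le_sSup hy ((hc hy).2 t)
    · refine ⟨⟨⟨0, 1, fun h => ?_⟩, mul_comm, ?_⟩, fun t => ⟨t, rfl⟩⟩
      · have h1 : (0 : T) = 1 := congr(($h : T))
        have h2 := congr(π $h1)
        rw [map_zero, map_one] at h2
        exact zero_ne_one h2
      · rintro ⟨_, t, rfl⟩ hne
        have h0 : π t ≠ 0 := by
          intro h
          refine hne (Subtype.ext ?_)
          change t ^ p = 0
          exact hN2 t h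
        obtain ⟨u, hu⟩ := hπ (π t)⁻¹
        refine ⟨⟨frobenius T p u, u, rfl⟩, Subtype.ext ?_⟩
        change t ^ p * u ^ p = 1
        have h1 : π (t * u - 1) = 0 := by
          rw [map_sub, map_mul, hu, mul_inv_cancel₀ h0, map_one, sub_self]
        have h2 := hN2 _ h1
        rw [sub_pow_char, one_pow, mul_pow] at h2
        exact sub_eq_zero.mp h2
  have hGF := hG.prop
  -- maximality
  have hsurj : ∀ b : k, ∃ a ∈ G, π a = b := by
    intro b
    by_contra hb
    push Not at hb
    obtain ⟨t, rfl⟩ := hπ b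
    let _ : Field G := hGF.1.toField
    let β : G := ⟨t ^ p, hGF.2 t⟩
    have hirr : Irreducible (X ^ p - C β : G[X]) := by
      refine X_pow_sub_C_irreducible_of_prime hp.out fun c hc => ?_
      refine hb c c.2 ?_
      have h1 : ((c : T)) ^ p = t ^ p := congr(($hc : T))
      have h2 := congr(π $h1)
      rw [map_pow, map_pow] at h2
      exact frobenius_inj k p h2
    have : Fact (Irreducible (X ^ p - C β : G[X])) := ⟨hirr⟩
    let φ : AdjoinRoot (X ^ p - C β : G[X]) →+* T := AdjoinRoot.lift G.subtype t (by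
      rw [eval₂_sub, eval₂_pow, eval₂_X, eval₂_C]
      exact sub_self _)
    have hφ : Function.Injective φ := by
      have : Nontrivial T := ⟨⟨1, 0, fun h => by
        have h2 := congr(π $h)
        rw [map_zero, map_one] at h2
        exact one_ne_zero h2⟩⟩
      exact RingHom.injective φ
    let e : φ.range ≃+* AdjoinRoot (X ^ p - C β : G[X]) :=
      (RingEquiv.ofBijective φ.rangeRestrict ⟨fun a b hab => hφ (congrArg Subtype.val hab),
        φ.rangeRestrict_surjective⟩).symm
    have h1 : IsField φ.range := e.toMulEquiv.isField (Field.toIsField _)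
    have h2 : G ≤ φ.range := by
      intro g hg
      refine ⟨AdjoinRoot.of _ ⟨g, hg⟩, ?_⟩
      rw [AdjoinRoot.lift_of]
      rfl
    have h3 : φ.range ≤ G := hG.le_of_ge ⟨h1, fun a => h2 (hGF.2 a)⟩ h2
    have h4 : t ∈ φ.range := ⟨AdjoinRoot.root _, AdjoinRoot.lift_root _⟩
    exact hb t (h3 h4) rfl
  let ψ : G →+* k := π.comp G.subtype
  have hψ : Function.Bijective ψ := by
    constructor
    · rw [injective_iff_map_eq_zero]
      intro a ha
      exact Subtype.ext (hker G hGF a a.2 ha)
    · intro b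
      obtain ⟨a, ha, hab⟩ := hsurj b
      exact ⟨⟨a, ha⟩, hab⟩
  let e := RingEquiv.ofBijective ψ hψ
  refine ⟨G.subtype.comp e.symm, ?_⟩
  ext b
  exact e.apply_symm_apply b

/-- every field of characteristic `p` is formally smooth over the prime field. -/
theorem formallySmooth_zmod (k : Type v) [Field k] [Algebra (ZMod p) k] :
    Algebra.FormallySmooth (ZMod p) k := by
  rw [Algebra.FormallySmooth.iff_comp_surjective]
  intro B _ _ I hI f
  -- the fibre product
  let T : Subring (k × B) := RingHom.eqLocus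
    ((f : k →+* B ⧸ I).comp (RingHom.fst k B)) ((Ideal.Quotient.mk I).comp (RingHom.snd k B))
  have hT : ∀ z : k × B, z ∈ T ↔ f z.1 = Ideal.Quotient.mk I z.2 := fun z => Iff.rfl
  let π : T →+* k := (RingHom.fst k B).comp T.subtype
  have hπ : Function.Surjective π := by
    intro a
    obtain ⟨b, hb⟩ := Ideal.Quotient.mk_surjective (f a)
    exact ⟨⟨(a, b), hb.symm⟩, rfl⟩
  have hN : ∀ a b, π a = 0 → π b = 0 → a * b = 0 := by
    rintro ⟨⟨a, u⟩, hu⟩ ⟨⟨b, v⟩, hv⟩ ha hb
    have ha' : a = 0 := ha
    have hb' : b = 0 := hb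
    subst ha' hb'
    rw [hT, map_zero] at hu hv
    have h1 : u * v ∈ I ^ 2 := by
      rw [pow_two]
      exact Ideal.mul_mem_mul (Ideal.Quotient.eq_zero_iff_mem.mp hu.symm)
        (Ideal.Quotient.eq_zero_iff_mem.mp hv.symm)
    rw [hI] at h1
    refine Subtype.ext (Prod.ext ?_ h1)
    exact mul_zero _
  have : Nontrivial T := ⟨⟨1, 0, fun h => by
    have h2 := congr(π $h)
    rw [map_zero, map_one] at h2
    exact one_ne_zero h2⟩⟩
  have hTp : CharP T p := by
    rw [CharP.charP_iff_prime_eq_zero hp.out]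
    refine Subtype.ext (Prod.ext ?_ ?_)
    · change ((p : ℕ) : k) = 0
      rw [← map_natCast (algebraMap (ZMod p) k), CharP.cast_eq_zero, map_zero]
    · change ((p : ℕ) : B) = 0
      rw [← map_natCast (algebraMap (ZMod p) B), CharP.cast_eq_zero, map_zero]
  obtain ⟨s, hs⟩ := exists_section_of_sq_zero p π hπ hN
  let g : k →+* B := (RingHom.snd k B).comp (T.subtype.comp s)
  refine ⟨{ g with commutes' := fun r => ?_ }, ?_⟩
  · exact RingHom.congr_fun (Subsingleton.elim (g.comp (algebraMap (ZMod p) k))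
      (algebraMap (ZMod p) B)) r
  · ext a
    have h1 := (s a).2
    rw [hT] at h1
    have h2 : ((s a : k × B)).1 = a := congr($hs a)
    rw [h2] at h1
    exact h1.symm

end fs

end Vale.Agent.P202.CharP.ArbK
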