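import Vale.Agent.P202.CharZero.CoeffField
import Vale.Agent.P202.CharZero.MM
import Vale.Agent.P202.CharP.ArbK.FSmooth

/-!
P202-ARBK: presentation of a local homomorphism of complete Noetherian local rings of
characteristic `p` by power series rings over the residue fields.
-/

namespace Vale.Agent.P202.CharP.ArbK

open MvPowerSeries IsLocalRing
open Vale.Agent.P202.CZ

universe u v

section complete

/-- a complete Noetherian local ring is complete for every ideal. -/
theorem isAdicComplete_of_le {R : Type*} [CommRing R] [IsLocalRing R] [IsNoetherianRing R]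
    [IsAdicComplete (maximalIdeal R) R] (J : Ideal R) (hJ : J ≤ maximalIdeal R) :
    IsAdicComplete J R := by
  have hh : IsHausdorff J R :=
    IsHausdorff.of_le_jacobson _ _ (hJ.trans (maximalIdeal_le_jacobson _))
  refine { hh with prec' := fun f hf => ?_ }
  obtain ⟨L, hL⟩ := IsPrecomplete.prec (I := maximalIdeal R) (M := R) inferInstance (f := f)
    (fun {m n} hmn => by
      have h1 := hf hmn
      rw [SModEq.sub_mem, smul_eq_mul, Ideal.mul_top] at h1 ⊢
      exact Ideal.pow_right_mono hJ m h1)
  refine ⟨L, fun m => ?_⟩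
  rw [SModEq.sub_mem, smul_eq_mul, Ideal.mul_top]
  have key : ∀ n : ℕ, f m - L ∈ J ^ m ⊔ maximalIdeal R ^ n := by
    intro n
    have h1 : f m - f (max m n) ∈ J ^ m := by
      have h2 := hf (le_max_left m n)
      rwa [SModEq.sub_mem, smul_eq_mul, Ideal.mul_top] at h2
    have h3 : f (max m n) - L ∈ maximalIdeal R ^ n := by
      have h4 := hL (max m n)
      rw [SModEq.sub_mem, smul_eq_mul, Ideal.mul_top] at h4
      exact Ideal.pow_le_pow_right (le_max_right m n) h4
    have h5 : f m - L = (f m - f (max m n)) + (f (max m n) - L) := by ring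
    rw [h5]
    exact Submodule.add_mem_sup h1 h3
  have hk : (⨅ n : ℕ, maximalIdeal R ^ n • (⊤ : Submodule R (R ⧸ J ^ m))) = ⊥ :=
    Ideal.iInf_pow_smul_eq_bot_of_le_jacobson _ (maximalIdeal_le_jacobson _)
  have hz : (Ideal.Quotient.mk (J ^ m) (f m - L)) ∈
      (⨅ n : ℕ, maximalIdeal R ^ n • (⊤ : Submodule R (R ⧸ J ^ m))) := by
    rw [Submodule.mem_iInf]
    intro n
    obtain ⟨a, ha, b, hb, hab⟩ := Submodule.mem_sup.mp (key n)
    rw [← hab, map_add, Ideal.Quotient.eq_zero_iff_mem.mpr ha, zero_add]
    have h1 : Ideal.Quotient.mk (J ^ m) b = b • (1 : R ⧸ J ^ m) := by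
      rw [Algebra.smul_def, mul_one]
      rfl
    rw [h1]
    exact Submodule.smul_mem_smul hb trivial
  rw [hk] at hz
  exact Ideal.Quotient.eq_zero_iff_mem.mp ((Submodule.mem_bot R).mp hz)

end complete

section uniq

variable {K S : Type*} [CommRing K] [CommRing S]

/-- a homomorphism from a power series ring to a separated ring is determined by the images of the
constants and of the variables. -/
theorem hom_ext_of_isHausdorff (I : Ideal S) [IsHausdorff I S] {d : ℕ}
    {φ ψ : MvPowerSeries (Fin d) K →+* S} (hX : ∀ i, φ (X i) ∈ I)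
    (h1 : ∀ a, φ (C a) = ψ (C a)) (h2 : ∀ i, φ (X i) = ψ (X i)) : φ = ψ := by
  have hφ : (Ideal.span (Set.range X) : Ideal (MvPowerSeries (Fin d) K)).map φ ≤ I := by
    rw [Ideal.map_span, Ideal.span_le]
    rintro _ ⟨_, ⟨i, rfl⟩, rfl⟩
    exact hX i
  have hψ : (Ideal.span (Set.range X) : Ideal (MvPowerSeries (Fin d) K)).map ψ ≤ I := by
    rw [Ideal.map_span, Ideal.span_le]
    rintro _ ⟨_, ⟨i, rfl⟩, rfl⟩
    rw [← h2]
    exact hX i
  have hpoly : ∀ f : MvPolynomial (Fin d) K, φ (f : MvPowerSeries (Fin d) K) =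
      ψ (f : MvPowerSeries (Fin d) K) := by
    intro f
    have : φ.comp (MvPolynomial.coeToMvPowerSeries.ringHom) =
        ψ.comp (MvPolynomial.coeToMvPowerSeries.ringHom) := by
      refine MvPolynomial.ringHom_ext (fun a => ?_) (fun i => ?_)
      · rw [RingHom.comp_apply, RingHom.comp_apply]
        simpa using h1 a
      · rw [RingHom.comp_apply, RingHom.comp_apply]
        simpa using h2 i
    exact congr($this f)
  ext f
  apply (IsHausdorff.eq_iff_smodEq (I := I)).2
  intro n
  rw [SModEq.sub_mem, smul_eq_mul, Ideal.mul_top]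
  have hf : f - (f.truncTotal n : MvPolynomial (Fin d) K) ∈
      (Ideal.span (Set.range X) : Ideal (MvPowerSeries (Fin d) K)) ^ n := by
    rw [mem_pow_iff]
    intro e he
    rw [map_sub, sub_eq_zero, MvPolynomial.coeff_coe, coeff_truncTotal _ he]
  have h3 : φ f - ψ f = φ (f - (f.truncTotal n : MvPolynomial (Fin d) K)) -
      ψ (f - (f.truncTotal n : MvPolynomial (Fin d) K)) := by
    rw [map_sub, map_sub, hpoly]
    ring
  rw [h3]
  refine sub_mem ?_ ?_
  · have := Ideal.mem_map_of_mem φ hf
    rw [Ideal.map_pow] at this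
    exact Ideal.pow_right_mono hφ n this
  · have := Ideal.mem_map_of_mem ψ hf
    rw [Ideal.map_pow] at this
    exact Ideal.pow_right_mono hψ n this

end uniq

section surj

/-- presentation of a complete local ring. -/
theorem exists_surjective_of_coeff {S : Type*} [CommRing S] [IsLocalRing S] [IsNoetherianRing S]
    [IsAdicComplete (maximalIdeal S) S] {K : Type*} [Field K] (σ : K →+* S)
    (hσ : ∀ z : S, ∃ a : K, z - σ a ∈ maximalIdeal S) :
    ∃ (h : ℕ) (φ : MvPowerSeries (Fin h) K →+* S), (∀ a, φ (C a) = σ a) ∧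
      (∀ i, φ (X i) ∈ maximalIdeal S) ∧ Function.Surjective φ := by
  obtain ⟨h, x, hx⟩ := Submodule.fg_iff_exists_fin_generating_family.mp
    (IsNoetherian.noetherian (maximalIdeal S))
  have hxm : ∀ i, x i ∈ maximalIdeal S := fun i => by
    rw [← hx]
    exact Submodule.subset_span (Set.mem_range_self i)
  obtain ⟨φ, h1, h2⟩ := exists_powerSeries_hom (maximalIdeal S) σ x hxm
  refine ⟨h, φ, h1, fun i => by rw [h2]; exact hxm i, ?_⟩
  algebraize [φ]
  have hfin : Module.Finite (MvPowerSeries (Fin h) K) S := by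
    refine finite_over_powerSeries (M := 1) (fun z => ?_) (fun i => ?_) ?_
    · obtain ⟨a, ha⟩ := hσ z
      refine ⟨a, ?_⟩
      rw [← h1] at ha
      exact ha
    · change φ (X i) ∈ _
      rw [h2]
      exact hxm i
    · rw [pow_one, ← hx]
      refine Submodule.span_mono ?_
      rintro _ ⟨i, rfl⟩
      exact ⟨i, h2 i⟩
  -- Nakayama
  have hmap : (maximalIdeal (MvPowerSeries (Fin h) K)).map φ = maximalIdeal S := by
    rw [maximalIdeal_eq, mm, Ideal.map_span, ← Set.range_comp]
    rw [← hx]
    congr 2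
    funext i
    exact h2 i
  have hle : (⊤ : Submodule (MvPowerSeries (Fin h) K) S) ≤
      Submodule.span (MvPowerSeries (Fin h) K) {(1 : S)} := by
    refine Submodule.le_of_le_smul_of_le_jacobson_bot Module.Finite.fg_top
      (maximalIdeal_le_jacobson (⊥ : Ideal (MvPowerSeries (Fin h) K))) ?_
    intro z _
    obtain ⟨a, ha⟩ := hσ z
    have h3 : z = σ a + (z - σ a) := by ring
    rw [h3]
    refine Submodule.add_mem_sup ?_ ?_
    · rw [Submodule.mem_span_singleton]
      refine ⟨C a, ?_⟩
      rw [Algebra.smul_def, mul_one]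
      exact h1 a
    · rw [Ideal.smul_top_eq_map, Submodule.restrictScalars_mem]
      rw [← hmap] at ha
      exact ha
  intro z
  obtain ⟨f, hf⟩ := Submodule.mem_span_singleton.mp (hle (Submodule.mem_top (x := z)))
  refine ⟨f, ?_⟩
  rw [Algebra.smul_def, mul_one] at hf
  exact hf

end surj

section coeff

/-- lifting a homomorphism from a field of characteristic `p` along the quotient by an ideal of a
complete local ring. -/
theorem exists_lift_field (p : ℕ) [Fact p.Prime] {k : Type v} [Field k] [CharP k p] {P : Type u}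
    [CommRing P] [CharP P p] {S : Type*} [CommRing S] (π : P →+* S) (hπ : Function.Surjective π)
    [IsAdicComplete (RingHom.ker π) P] (f : k →+* S) :
    ∃ g : k →+* P, π.comp g = f := by
  let _ : Algebra (ZMod p) k := ZMod.algebra k p
  let _ : Algebra (ZMod p) P := ZMod.algebra P p
  have hfs : Algebra.FormallySmooth (ZMod p) k := formallySmooth_zmod p k
  let e : (P ⧸ RingHom.ker π) ≃+* S := RingHom.quotientKerEquivOfSurjective hπ
  let g0 : k →+* (P ⧸ RingHom.ker π) := (e.symm : S →+* _).comp f
  let g1 : k →ₐ[ZMod p] (P ⧸ RingHom.ker π) :=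
    { g0 with
      commutes' := fun r => RingHom.congr_fun (Subsingleton.elim
        (g0.comp (algebraMap (ZMod p) k)) (algebraMap (ZMod p) (P ⧸ RingHom.ker π))) r }
  obtain ⟨g, hg⟩ := Algebra.FormallySmooth.exists_mkₐ_comp_eq_of_isAdicComplete
    (R := ZMod p) (A := k) (I := RingHom.ker π) g1
  refine ⟨g.toRingHom, ?_⟩
  ext a
  have h1 : Ideal.Quotient.mk (RingHom.ker π) (g a) = e.symm (f a) := congr($hg a)
  have h2 := congr(e $h1)
  rw [RingEquiv.apply_symm_apply] at h2
  exact h2

/-- TASK AK-1: coefficient fields in characteristic `p`. -/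
theorem exists_coefficient_field (p : ℕ) [Fact p.Prime] {R : Type u} [CommRing R]
    [IsLocalRing R] [IsAdicComplete (maximalIdeal R) R] [CharP R p] :
    ∃ σ : ResidueField R →+* R, ∀ a, residue R (σ a) = a := by
  have hk : CharP (ResidueField R) p := by
    rw [CharP.charP_iff_prime_eq_zero (Fact.out : p.Prime)]
    rw [← map_natCast (residue R), CharP.cast_eq_zero, map_zero]
  have hc : IsAdicComplete (RingHom.ker (residue R)) R := by
    rw [ker_residue]
    infer_instance
  obtain ⟨g, hg⟩ := exists_lift_field p (residue R) residue_surjective (RingHom.id _)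
  exact ⟨g, fun a => congr($hg a)⟩

instance charP_mvPowerSeries {p : ℕ} {σ k : Type*} [CommRing k] [CharP k p] :
    CharP (MvPowerSeries σ k) p where
  cast_eq_zero_iff a := by
    rw [← CharP.cast_eq_zero_iff k p a, ← map_natCast (C (σ := σ) (R := k)) a]
    constructor
    · intro h
      have h1 := congr(constantCoeff $h)
      rwa [constantCoeff_C, map_zero] at h1
    · intro h
      rw [h, map_zero]

/-- presentation of a local homomorphism of complete local rings by power series rings over
the residue fields. -/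
theorem exists_presentation (p : ℕ) [Fact p.Prime] {A S : Type u} [CommRing A] [IsLocalRing A]
    [IsNoetherianRing A] [CharP A p] [IsAdicComplete (maximalIdeal A) A]
    [CommRing S] [IsLocalRing S] [IsNoetherianRing S] [CharP S p]
    [IsAdicComplete (maximalIdeal S) S] [Algebra A S] [IsLocalHom (algebraMap A S)] :
    ∃ (g h : ℕ) (a : MvPowerSeries (Fin g) (ResidueField A) →+* A)
      (b : MvPowerSeries (Fin h) (ResidueField S) →+* S)
      (Ψ : MvPowerSeries (Fin g) (ResidueField A) →+* MvPowerSeries (Fin h) (ResidueField S)),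
      Function.Surjective a ∧ Function.Surjective b ∧ b.comp Ψ = (algebraMap A S).comp a ∧
      (∀ i, Ψ (X i) ∈ maximalIdeal (MvPowerSeries (Fin h) (ResidueField S))) := by
  have hkA : CharP (ResidueField A) p := by
    rw [CharP.charP_iff_prime_eq_zero (Fact.out : p.Prime)]
    rw [← map_natCast (residue A), CharP.cast_eq_zero, map_zero]
  have hkS : CharP (ResidueField S) p := by
    rw [CharP.charP_iff_prime_eq_zero (Fact.out : p.Prime)]
    rw [← map_natCast (residue S), CharP.cast_eq_zero, map_zero]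
  obtain ⟨σ, hσ⟩ := exists_coefficient_field p (R := A)
  obtain ⟨τ, hτ⟩ := exists_coefficient_field p (R := S)
  obtain ⟨g, a, ha1, ha2, ha3⟩ := exists_surjective_of_coeff σ fun z => ⟨residue A z, by
    rw [← residue_eq_zero_iff, map_sub, hσ, sub_self]⟩
  obtain ⟨h, b, hb1, hb2, hb3⟩ := exists_surjective_of_coeff τ fun z => ⟨residue S z, by
    rw [← residue_eq_zero_iff, map_sub, hτ, sub_self]⟩
  have hbl : IsLocalHom b := (IsLocalHom.of_surjective b hb3)
  have hbm : ∀ f, b f ∈ maximalIdeal S → f ∈ maximalIdeal _ := by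
    intro f hf
    rw [mem_maximalIdeal, mem_nonunits_iff] at hf ⊢
    exact fun h => hf (h.map b)
  have hJ : RingHom.ker b ≤ maximalIdeal (MvPowerSeries (Fin h) (ResidueField S)) := by
    intro f hf
    refine hbm f ?_
    rw [(RingHom.mem_ker (f := b)).mp hf]
    exact zero_mem _
  have hJc := isAdicComplete_of_le (RingHom.ker b) hJ
  obtain ⟨ι, hι⟩ := exists_lift_field p b hb3 ((algebraMap A S).comp σ)
  choose x hx using fun i : Fin g => hb3 (algebraMap A S (a (X i)))
  have hxm : ∀ i, x i ∈ maximalIdeal (MvPowerSeries (Fin h) (ResidueField S)) := by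
    intro i
    refine hbm _ ?_
    rw [hx, mem_maximalIdeal, mem_nonunits_iff]
    intro h1
    exact (mem_nonunits_iff.mp ((mem_maximalIdeal _).mp (ha2 i)))
      (isUnit_of_map_unit (algebraMap A S) _ h1)
  obtain ⟨Ψ, hΨ1, hΨ2⟩ := exists_powerSeries_hom
    (maximalIdeal (MvPowerSeries (Fin h) (ResidueField S))) ι x hxm
  refine ⟨g, h, a, b, Ψ, ha3, hb3, ?_, fun i => by rw [hΨ2]; exact hxm i⟩
  refine hom_ext_of_isHausdorff (maximalIdeal S) (fun i => ?_) (fun c => ?_) (fun i => ?_)
  · rw [RingHom.comp_apply, hΨ2, hx, mem_maximalIdeal, mem_nonunits_iff]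
    intro h1
    exact (mem_nonunits_iff.mp ((mem_maximalIdeal _).mp (ha2 i)))
      (isUnit_of_map_unit (algebraMap A S) _ h1)
  · rw [RingHom.comp_apply, RingHom.comp_apply, hΨ1, ha1]
    exact congr($hι c)
  · rw [RingHom.comp_apply, RingHom.comp_apply, hΨ2, hx]

end coeff

section skel

/-- TASK AK-1: homomorphisms from power series rings are determined by constants and
variables. -/
theorem powerSeries_hom_ext {k R : Type*} [CommRing k] [CommRing R] (I : Ideal R)
    [IsHausdorff I R] {n : ℕ} (f g : MvPowerSeries (Fin n) k →+* R)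
    (hC : ∀ a, f (C a) = g (C a)) (hX : ∀ i, f (X i) = g (X i)) (hI : ∀ i, f (X i) ∈ I) :
    f = g :=
  hom_ext_of_isHausdorff I hI hC hX

/-- TASK AK-2: lifting homomorphisms of fields. -/
theorem exists_lift (p : ℕ) [Fact p.Prime] {k : Type*} [Field k] [CharP k p] {L : Type*}
    [CommRing L] [IsLocalRing L] [IsNoetherianRing L] [IsAdicComplete (maximalIdeal L) L]
    [CharP L p] {S : Type*} [CommRing S] [Nontrivial S] (Θ : L →+* S) (hΘ : Function.Surjective Θ)
    (τ : k →+* S) : ∃ ι : k →+* L, ∀ a, Θ (ι a) = τ a := by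
  have := isAdicComplete_of_le (RingHom.ker Θ) (le_maximalIdeal (RingHom.ker_ne_top Θ))
  obtain ⟨ι, hι⟩ := exists_lift_field p Θ hΘ τ
  exact ⟨ι, fun a => congr($hι a)⟩

/-- TASK AK-3: Cohen's structure theorem in characteristic `p`. -/
theorem exists_powerSeries_surjection (p : ℕ) [Fact p.Prime] {S : Type u} [CommRing S]
    [IsLocalRing S] [IsNoetherianRing S] [IsAdicComplete (maximalIdeal S) S] [CharP S p] :
    ∃ (v : ℕ) (Θ : MvPowerSeries (Fin v) (ResidueField S) →+* S), Function.Surjective Θ ∧
      Ideal.span (Set.range fun i => Θ (X i)) = maximalIdeal S := by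
  obtain ⟨τ, hτ⟩ := exists_coefficient_field p (R := S)
  obtain ⟨h, b, hb1, hb2, hb3⟩ := exists_surjective_of_coeff τ fun z => ⟨residue S z, by
    rw [← residue_eq_zero_iff, map_sub, hτ, sub_self]⟩
  refine ⟨h, b, hb3, ?_⟩
  have hbm : ∀ f, b f ∈ maximalIdeal S → f ∈ maximalIdeal _ := by
    intro f hf
    rw [mem_maximalIdeal, mem_nonunits_iff] at hf ⊢
    exact fun h => hf (h.map b)
  refine le_antisymm ?_ ?_
  · rw [Ideal.span_le]
    rintro _ ⟨i, rfl⟩
    exact hb2 i
  · intro z hz
    obtain ⟨f, rfl⟩ := hb3 z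
    have hf := hbm f hz
    rw [maximalIdeal_eq, mm] at hf
    have h1 := Ideal.mem_map_of_mem b hf
    rw [Ideal.map_span, ← Set.range_comp] at h1
    exact h1

end skel

end Vale.Agent.P202.CharP.ArbK
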