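import Vale.Agent.P202.CharP.ArbK.Defs
import Vale.Agent.P202.CharP.FlatX

/-!
P202-AK-7: flatness over an unramified flat extension.
-/

namespace Vale.Agent.P202.CharP.ArbK

open IsLocalRing TensorProduct

/-- TASK AK-7: flatness over an unramified flat extension. -/
theorem flat_of_unramified {R A S₁ : Type*} [CommRing R] [IsLocalRing R] [IsNoetherianRing R]
    [CommRing A] [IsLocalRing A] [IsNoetherianRing A] [CommRing S₁] [IsLocalRing S₁]
    [IsNoetherianRing S₁] [Algebra R A] [Algebra A S₁] [Algebra R S₁] [IsScalarTower R A S₁]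
    [Module.Flat R A] [Module.Flat R S₁]
    (hmax : maximalIdeal A = (maximalIdeal R).map (algebraMap R A))
    (hloc : (maximalIdeal A).map (algebraMap A S₁) ≤ maximalIdeal S₁) : Module.Flat A S₁ := by
  refine flat_of_maximal_injective (maximalIdeal A) hloc ?_
  have hι : ∀ x : maximalIdeal R, algebraMap R A x ∈ maximalIdeal A := by
    intro x
    rw [hmax]
    exact Ideal.mem_map_of_mem _ x.2
  let ι : maximalIdeal R →+ maximalIdeal A :=
    { toFun := fun x => ⟨algebraMap R A x, hι x⟩
      map_zero' := by ext; simp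
      map_add' := fun x y => by ext; simp }
  have hι' : ∀ x : maximalIdeal R, ((ι x : maximalIdeal A) : A) = algebraMap R A x := fun _ => rfl
  let f : S₁ →+ maximalIdeal R →+ S₁ ⊗[A] (maximalIdeal A) :=
    { toFun := fun s => (TensorProduct.mk A S₁ (maximalIdeal A) s).toAddMonoidHom.comp ι
      map_zero' := by
        ext x
        simp
      map_add' := fun s t => by
        ext x
        simp }
  have hf : ∀ (r : R) (s : S₁) (x : maximalIdeal R), f (r • s) x = f s (r • x) := by
    intro r s x
    change (r • s) ⊗ₜ[A] ι x = s ⊗ₜ[A] ι (r • x)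
    have h1 : r • s = algebraMap R A r • s := (algebraMap_smul A r s).symm
    have h2 : ι (r • x) = algebraMap R A r • ι x := by
      apply Subtype.ext
      change algebraMap R A (r * x) = algebraMap R A r * algebraMap R A x
      rw [map_mul]
    rw [h1, h2, TensorProduct.smul_tmul]
  let φ : S₁ ⊗[R] (maximalIdeal R) →+ S₁ ⊗[A] (maximalIdeal A) := TensorProduct.liftAddHom f hf
  have hφ : ∀ (s : S₁) (x : maximalIdeal R), φ (s ⊗ₜ[R] x) = s ⊗ₜ[A] ι x := fun s x => rfl
  have hspan : ∀ a ∈ (maximalIdeal R).map (algebraMap R A), ∀ ha : a ∈ maximalIdeal A,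
      ∀ s : S₁, ∃ w, φ w = s ⊗ₜ[A] (⟨a, ha⟩ : maximalIdeal A) := by
    intro a ha
    induction ha using Submodule.span_induction with
    | mem a h =>
      obtain ⟨x, hx, rfl⟩ := h
      intro ha s
      exact ⟨s ⊗ₜ[R] (⟨x, hx⟩ : maximalIdeal R), rfl⟩
    | zero =>
      intro ha s
      refine ⟨0, ?_⟩
      rw [map_zero]
      have : (⟨0, ha⟩ : maximalIdeal A) = 0 := rfl
      rw [this, TensorProduct.tmul_zero]
    | add a b ha' hb' iha ihb =>
      intro hab s
      have ha1 : a ∈ maximalIdeal A := by rw [hmax]; exact ha'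
      have hb1 : b ∈ maximalIdeal A := by rw [hmax]; exact hb'
      obtain ⟨u, hu⟩ := iha ha1 s
      obtain ⟨v, hv⟩ := ihb hb1 s
      refine ⟨u + v, ?_⟩
      rw [map_add, hu, hv, ← TensorProduct.tmul_add]
      rfl
    | smul c a ha' iha =>
      intro hca s
      have ha1 : a ∈ maximalIdeal A := by rw [hmax]; exact ha'
      obtain ⟨u, hu⟩ := iha ha1 (c • s)
      refine ⟨u, ?_⟩
      rw [hu, TensorProduct.smul_tmul]
      rfl
  have hsurj : Function.Surjective φ := by
    intro z
    induction z using TensorProduct.induction_on with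
    | zero => exact ⟨0, map_zero _⟩
    | tmul s y =>
      obtain ⟨a, ha⟩ := y
      exact hspan a (by rw [← hmax]; exact ha) ha s
    | add x y hx hy =>
      obtain ⟨u, rfl⟩ := hx
      obtain ⟨v, rfl⟩ := hy
      exact ⟨u + v, map_add _ _ _⟩
  have hinj : Function.Injective ((maximalIdeal R).subtype.lTensor S₁) :=
    Module.Flat.lTensor_preserves_injective_linearMap _ (Submodule.injective_subtype _)
  have hcomp : ∀ w : S₁ ⊗[R] (maximalIdeal R),
      TensorProduct.rid A S₁ ((maximalIdeal A).subtype.lTensor S₁ (φ w)) =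
        TensorProduct.rid R S₁ ((maximalIdeal R).subtype.lTensor S₁ w) := by
    intro w
    induction w using TensorProduct.induction_on with
    | zero => simp only [map_zero]
    | tmul s x =>
      rw [hφ, LinearMap.lTensor_tmul, LinearMap.lTensor_tmul, TensorProduct.rid_tmul,
        TensorProduct.rid_tmul]
      change (algebraMap R A x) • s = (x : R) • s
      exact algebraMap_smul A (x : R) s
    | add x y hx hy => simp only [map_add, hx, hy]
  rw [injective_iff_map_eq_zero]
  intro z hz
  obtain ⟨w, rfl⟩ := hsurj z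
  have h1 := hcomp w
  rw [hz, map_zero] at h1
  have h2 : (maximalIdeal R).subtype.lTensor S₁ w = 0 :=
    (TensorProduct.rid R S₁).injective (by rw [← h1, map_zero])
  have h3 : w = 0 := hinj (by rw [h2, map_zero])
  rw [h3, map_zero]

end Vale.Agent.P202.CharP.ArbK
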