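import Vale.Agent.P202.CharP.ArbK.Defs
import Vale.Agent.P202.CharP.ArbK.FlatPS
import Vale.Agent.P202.CharP.ArbK.Coef
import Vale.Agent.P202.CharZero.CoeffField
import Vale.Agent.P202.CharZero.MM
import Vale.Agent.P202.FinLen

/-!
P202-AK-6: the relative Frobenius `A = R ⊗ k[[x]]`.
-/

set_option linter.unusedSectionVars false

namespace Vale.Agent.P202.CharP.ArbK

open IsLocalRing TensorProduct MvPowerSeries

universe u

/-- ring homomorphisms out of tensor products. -/
theorem exists_tensor_hom {L R P S : Type*} [CommRing L] [CommRing R] [CommRing P] [CommRing S]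
    [Algebra L R] [Algebra L P] (f : R →+* S) (g : P →+* S)
    (h : ∀ l, f (algebraMap L R l) = g (algebraMap L P l)) :
    ∃ F : R ⊗[L] P →+* S, ∀ r s, F (r ⊗ₜ s) = f r * g s := by
  let : Algebra L S := (f.comp (algebraMap L R)).toAlgebra
  let f' : R →ₐ[L] S := { f with commutes' := fun _ => rfl }
  let g' : P →ₐ[L] S := { g with commutes' := fun l => (h l).symm }
  exact ⟨(Algebra.TensorProduct.productMap f' g').toRingHom, fun r s =>
    Algebra.TensorProduct.productMap_apply_tmul f' g' r s⟩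

theorem includeRight_finite {L R P : Type*} [CommRing L] [CommRing R] [CommRing P]
    [Algebra L R] [Algebra L P] [Module.Finite L R] :
    (Algebra.TensorProduct.includeRight : P →ₐ[L] R ⊗[L] P).toRingHom.Finite := by
  have h1 : (algebraMap P (P ⊗[L] R)).Finite := by
    rw [RingHom.finite_algebraMap]
    infer_instance
  have h2 : (Algebra.TensorProduct.comm L P R).toRingEquiv.toRingHom.Finite :=
    RingHom.Finite.of_surjective _ (Algebra.TensorProduct.comm L P R).surjective
  have h3 := h2.comp h1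
  have h4 : (Algebra.TensorProduct.includeRight : P →ₐ[L] R ⊗[L] P).toRingHom =
      ((Algebra.TensorProduct.comm L P R).toRingEquiv.toRingHom).comp
        (algebraMap P (P ⊗[L] R)) := by
    ext x
    simp [Algebra.TensorProduct.algebraMap_apply]
  rw [h4]
  exact h3

instance (p n : ℕ) [Fact p.Prime] (k : Type*) [Field k] [CharP k p] (e : ℕ) :
    IsLocalRing (PSc p n k e) := inferInstanceAs (IsLocalRing (MvPowerSeries (Fin n) k))

instance (p n : ℕ) [Fact p.Prime] (k : Type*) [Field k] [CharP k p] (e : ℕ) :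
    IsNoetherianRing (PSc p n k e) :=
  inferInstanceAs (IsNoetherianRing (MvPowerSeries (Fin n) k))

section Core

variable (p : ℕ) [Fact p.Prime] {k : Type u} [Field k] [CharP k p] {R : Type u} [CommRing R]
  [IsLocalRing R] [CharP R p] {n : ℕ} [Algebra (MvPowerSeries (Fin n) k) R]
  (e : ℕ)

/-- the image of the variables. -/
theorem one_tmul_X (i : Fin n) :
    (1 : R) ⊗ₜ[MvPowerSeries (Fin n) k] (toPSc p n k e (X i)) =
      algebraMap R (R ⊗[MvPowerSeries (Fin n) k] PSc p n k e)
        (algebraMap (MvPowerSeries (Fin n) k) R (X i)) := by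
  have h : toPSc p n k e (X i) = algebraMap (MvPowerSeries (Fin n) k) (PSc p n k e) (X i) := by
    change (X i : MvPowerSeries (Fin n) k) = cfrob p n k e (X i)
    rw [cfrob, MvPowerSeries.map_X]
  rw [h, Algebra.TensorProduct.algebraMap_apply, Algebra.algebraMap_eq_smul_one,
    TensorProduct.tmul_smul, TensorProduct.smul_tmul', Algebra.smul_def, mul_one]
  rfl

theorem tmul_C (a : k) (f : PSc p n k e) :
    (algebraMap (MvPowerSeries (Fin n) k) R (C a)) ⊗ₜ[MvPowerSeries (Fin n) k] f =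
      (1 : R) ⊗ₜ[MvPowerSeries (Fin n) k] (toPSc p n k e (C (a ^ p ^ e)) * f) := by
  have h : toPSc p n k e (C (a ^ p ^ e)) = algebraMap (MvPowerSeries (Fin n) k) (PSc p n k e)
      (C a) := by
    change (C (a ^ p ^ e) : MvPowerSeries (Fin n) k) = cfrob p n k e (C a)
    rw [cfrob, MvPowerSeries.map_C, iterateFrobenius_def]
  rw [h, Algebra.algebraMap_eq_smul_one, TensorProduct.smul_tmul, Algebra.smul_def]

/-- every element is a constant modulo the maximal ideal. -/
theorem exists_const [Module.Finite (MvPowerSeries (Fin n) k) R] (σ : k →+* R)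
    (hC : ∀ a, algebraMap (MvPowerSeries (Fin n) k) R (C a) = σ a)
    (hX : ∀ i, algebraMap (MvPowerSeries (Fin n) k) R (X i) ∈ maximalIdeal R)
    (hσ : ∀ r : R, ∃ a : k, r - σ a ∈ maximalIdeal R)
    (a : R ⊗[MvPowerSeries (Fin n) k] PSc p n k e) :
    ∃ c : k, a - (1 : R) ⊗ₜ[MvPowerSeries (Fin n) k] (toPSc p n k e (C c)) ∈
      (maximalIdeal R).map (algebraMap R (R ⊗[MvPowerSeries (Fin n) k] PSc p n k e)) := by
  set L := MvPowerSeries (Fin n) k with hL
  set J := (maximalIdeal R).map (algebraMap R (R ⊗[L] PSc p n k e)) with hJ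
  -- multiples of the variables
  have h1 : ∀ f : L, constantCoeff f = 0 → (1 : R) ⊗ₜ[L] (toPSc p n k e f) ∈ J := by
    intro f hf
    have h2 : f ∈ Ideal.span (Set.range (X : Fin n → L)) := CZ.mem_span_X_iff.2 hf
    have h3 : ∀ g ∈ Ideal.span (Set.range (X : Fin n → L)), (1 : R) ⊗ₜ[L] (toPSc p n k e g) ∈ J := by
      intro g hg
      refine Submodule.span_induction ?_ ?_ ?_ ?_ hg
      · rintro _ ⟨i, rfl⟩
        rw [one_tmul_X]
        exact Ideal.mem_map_of_mem _ (hX i)
      · rw [map_zero, TensorProduct.tmul_zero]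
        exact J.zero_mem
      · intro x y _ _ hx hy
        rw [map_add, TensorProduct.tmul_add]
        exact J.add_mem hx hy
      · intro b x _ hx
        rw [smul_eq_mul, map_mul]
        have : (1 : R) ⊗ₜ[L] (toPSc p n k e b * toPSc p n k e x) =
            ((1 : R) ⊗ₜ[L] (toPSc p n k e b)) * ((1 : R) ⊗ₜ[L] (toPSc p n k e x)) := by
          rw [Algebra.TensorProduct.tmul_mul_tmul, one_mul]
        rw [this]
        exact J.mul_mem_left _ hx
    exact h3 f h2
  induction a using TensorProduct.induction_on with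
  | zero => exact ⟨0, by simp⟩
  | tmul r f =>
    obtain ⟨a, ha⟩ := hσ r
    obtain ⟨f, rfl⟩ := (toPSc p n k e).surjective f
    refine ⟨a ^ p ^ e * constantCoeff f, ?_⟩
    have e1 : r ⊗ₜ[L] (toPSc p n k e f) = (r - σ a) ⊗ₜ[L] (toPSc p n k e f) +
        (σ a) ⊗ₜ[L] (toPSc p n k e f) := by
      rw [← TensorProduct.add_tmul, sub_add_cancel]
    have e2 : (σ a) ⊗ₜ[L] (toPSc p n k e f) =
        (1 : R) ⊗ₜ[L] (toPSc p n k e (C (a ^ p ^ e) * f)) := by
      rw [← hC, tmul_C, map_mul]
    have e3 : (1 : R) ⊗ₜ[L] (toPSc p n k e (C (a ^ p ^ e) * f)) -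
        (1 : R) ⊗ₜ[L] (toPSc p n k e (C (a ^ p ^ e * constantCoeff f))) =
        (1 : R) ⊗ₜ[L] (toPSc p n k e (C (a ^ p ^ e) * f - C (a ^ p ^ e * constantCoeff f))) := by
      rw [← TensorProduct.tmul_sub, ← map_sub]
    have e4 : (r - σ a) ⊗ₜ[L] (toPSc p n k e f) =
        algebraMap R (R ⊗[L] PSc p n k e) (r - σ a) * ((1 : R) ⊗ₜ[L] (toPSc p n k e f)) := by
      rw [Algebra.TensorProduct.algebraMap_apply, Algebra.TensorProduct.tmul_mul_tmul]
      simp
    rw [e1, e2, add_sub_assoc, e3, e4]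
    refine J.add_mem (J.mul_mem_right _ (Ideal.mem_map_of_mem _ ha)) (h1 _ ?_)
    simp
  | add x y hx hy =>
    obtain ⟨c, hc⟩ := hx
    obtain ⟨d, hd⟩ := hy
    refine ⟨c + d, ?_⟩
    have : x + y - (1 : R) ⊗ₜ[L] (toPSc p n k e (C (c + d))) =
        (x - (1 : R) ⊗ₜ[L] (toPSc p n k e (C c))) + (y - (1 : R) ⊗ₜ[L] (toPSc p n k e (C d))) := by
      rw [map_add, map_add, TensorProduct.tmul_add]
      ring
    rw [this]
    exact J.add_mem hc hd

variable [IsNoetherianRing R] [Module.Finite (MvPowerSeries (Fin n) k) R] (σ : k →+* R)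
    (hC : ∀ a, algebraMap (MvPowerSeries (Fin n) k) R (C a) = σ a)
    (hX : ∀ i, algebraMap (MvPowerSeries (Fin n) k) R (X i) ∈ maximalIdeal R)
    (ψ : MvPowerSeries (Fin n) k →+* R) (hψC : ∀ a, ψ (C a) = σ a)
    (hψX : ∀ i, ψ (X i) = algebraMap (MvPowerSeries (Fin n) k) R (X i) ^ p ^ e)

include hC hX hψC hψX in
theorem exists_rho :
    ∃ ρ : R ⊗[MvPowerSeries (Fin n) k] PSc p n k e →+* R,
      ∀ r f, ρ (r ⊗ₜ toPSc p n k e f) = r ^ p ^ e * ψ f := by
  set L := MvPowerSeries (Fin n) k with hL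
  have h1 : (iterateFrobenius R p e).comp (algebraMap L R) = ψ.comp (cfrob p n k e) := by
    apply powerSeries_hom_ext (maximalIdeal R)
    · intro a
      rw [RingHom.comp_apply, RingHom.comp_apply, hC, cfrob, MvPowerSeries.map_C, hψC,
        iterateFrobenius_def, iterateFrobenius_def, map_pow]
    · intro i
      rw [RingHom.comp_apply, RingHom.comp_apply, cfrob, MvPowerSeries.map_X, hψX,
        iterateFrobenius_def]
    · intro i
      rw [RingHom.comp_apply, iterateFrobenius_def]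
      exact Ideal.pow_mem_of_mem _ (hX i) _ (pow_pos (Fact.out : p.Prime).pos e)
  obtain ⟨F, hF⟩ := exists_tensor_hom (L := L) (R := R) (P := PSc p n k e) (S := R)
    (iterateFrobenius R p e) (ψ.comp (toPSc p n k e).symm.toRingHom) (fun l => congr($h1 l))
  exact ⟨F, fun r f => by rw [hF]; rfl⟩

variable (hσ : ∀ r : R, ∃ a : k, r - σ a ∈ maximalIdeal R)
  (ρ : R ⊗[MvPowerSeries (Fin n) k] PSc p n k e →+* R)
  (hρ : ∀ r f, ρ (r ⊗ₜ toPSc p n k e f) = r ^ p ^ e * ψ f)

include hC hX hψC hψX hρ in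
theorem rho_fr : ∀ a : R ⊗[MvPowerSeries (Fin n) k] PSc p n k e,
    algebraMap R (R ⊗[MvPowerSeries (Fin n) k] PSc p n k e) (ρ a) = a ^ p ^ e := by
  set L := MvPowerSeries (Fin n) k with hL
  set A := R ⊗[L] PSc p n k e with hA
  have hchar : (p : A) = 0 := by
    rw [← map_natCast (algebraMap R A) p, CharP.cast_eq_zero, map_zero]
  -- `A` is Hausdorff
  let : Algebra (PSc p n k e) A :=
    (Algebra.TensorProduct.includeRight : PSc p n k e →ₐ[L] A).toRingHom.toAlgebra
  have hfin : Module.Finite (PSc p n k e) A := includeRight_finite (L := L)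
  have h1 : IsHausdorff (maximalIdeal (PSc p n k e)) A :=
    IsHausdorff.of_le_jacobson _ _ (maximalIdeal_le_jacobson _)
  have h2 : IsHausdorff ((maximalIdeal (PSc p n k e)).map (algebraMap (PSc p n k e) A)) A :=
    IsHausdorff.map_algebraMap_iff.2 h1
  by_cases hnt : Nontrivial A
  swap
  · have := not_nontrivial_iff_subsingleton.1 hnt
    exact fun _ => Subsingleton.elim _ _
  have hA : CharP A p := (CharP.charP_iff_prime_eq_zero Fact.out).2 hchar
  have h3 : (algebraMap R A).comp ψ = (iterateFrobenius A p e).comp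
      ((Algebra.TensorProduct.includeRight : PSc p n k e →ₐ[L] A).toRingHom.comp
        (toPSc p n k e).toRingHom) := by
    have hq : ∀ f : PSc p n k e, (((1 : R) ⊗ₜ[L] f : A)) ^ p ^ e = (1 : R) ⊗ₜ[L] (f ^ p ^ e) := by
      intro f
      rw [Algebra.TensorProduct.tmul_pow, one_pow]
    apply powerSeries_hom_ext ((maximalIdeal (PSc p n k e)).map (algebraMap (PSc p n k e) A))
    · intro a
      change algebraMap R A (ψ (C a)) = ((1 : R) ⊗ₜ[L] (toPSc p n k e (C a)) : A) ^ p ^ e
      rw [hψC, hq, ← hC, Algebra.TensorProduct.algebraMap_apply, ← map_pow, ← map_pow]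
      have := tmul_C p e (R := R) a (1 : PSc p n k e)
      rw [mul_one] at this
      exact this
    · intro i
      change algebraMap R A (ψ (X i)) = ((1 : R) ⊗ₜ[L] (toPSc p n k e (X i)) : A) ^ p ^ e
      rw [hψX, map_pow, one_tmul_X]
    · intro i
      change algebraMap R A (ψ (X i)) ∈ _
      rw [hψX, map_pow, ← one_tmul_X]
      refine Ideal.pow_mem_of_mem _ ?_ _ (pow_pos (Fact.out : p.Prime).pos e)
      have : toPSc p n k e (X i) ∈ maximalIdeal (PSc p n k e) := by
        change (X i : MvPowerSeries (Fin n) k) ∈ maximalIdeal (MvPowerSeries (Fin n) k)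
        rw [mem_maximalIdeal, mem_nonunits_iff, MvPowerSeries.isUnit_iff_constantCoeff]
        simp
      exact Ideal.mem_map_of_mem (algebraMap (PSc p n k e) A) this
  have h4 : (algebraMap R A).comp ρ = iterateFrobenius A p e := by
    ext a
    · change algebraMap R A (ρ (a ⊗ₜ (toPSc p n k e 1))) = (a ⊗ₜ[L] (1 : PSc p n k e)) ^ p ^ e
      rw [hρ, map_one, mul_one, map_pow]
      rfl
    · obtain ⟨f, rfl⟩ := (toPSc p n k e).surjective a
      change algebraMap R A (ρ (1 ⊗ₜ (toPSc p n k e f))) =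
        (1 ⊗ₜ[L] (toPSc p n k e f)) ^ p ^ e
      rw [hρ, one_pow, one_mul]
      exact congr($h3 f)
  intro a
  have h5 := RingHom.congr_fun h4 a
  rw [RingHom.comp_apply, iterateFrobenius_def] at h5
  exact h5

include hC hX hψC hψX hρ hσ in
theorem relFrob_core (hψ : ψ.Finite)
    (hflat : Module.Flat (MvPowerSeries (Fin n) k) (PSc p n k e)) :
    ∃ (_ : IsLocalRing (R ⊗[MvPowerSeries (Fin n) k] PSc p n k e))
      (_ : IsNoetherianRing (R ⊗[MvPowerSeries (Fin n) k] PSc p n k e))
      (_ : CharP (R ⊗[MvPowerSeries (Fin n) k] PSc p n k e) p),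
      RelFrob p e R (R ⊗[MvPowerSeries (Fin n) k] PSc p n k e) ρ := by
  have hfr := rho_fr p e σ hC hX ψ hψC hψX ρ hρ
  have hcst := exists_const p e (R := R) σ hC hX hσ
  set L := MvPowerSeries (Fin n) k with hL
  set A := R ⊗[L] PSc p n k e with hA
  have hq : 0 < p ^ e := pow_pos (Fact.out : p.Prime).pos e
  have hrf : ∀ r : R, ρ (algebraMap R A r) = r ^ p ^ e := by
    intro r
    have h := hρ r 1
    rw [map_one, map_one, mul_one] at h
    exact h
  have hρC : ∀ c : k, ρ ((1 : R) ⊗ₜ[L] toPSc p n k e (C c)) = σ c := by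
    intro c
    rw [hρ, one_pow, one_mul, hψC]
  have hnt : Nontrivial A := ρ.domain_nontrivial
  have hlocρ : IsLocalHom ρ := by
    refine ⟨fun a ha => ?_⟩
    have h1 : IsUnit (a ^ p ^ e) := by
      rw [← hfr]
      exact ha.map _
    exact (isUnit_pow_iff hq.ne').1 h1
  have hloc : IsLocalRing A := RingHom.domain_isLocalRing ρ
  have hnoeth : IsNoetherianRing A := by
    let : Algebra (PSc p n k e) A :=
      (Algebra.TensorProduct.includeRight : PSc p n k e →ₐ[L] A).toRingHom.toAlgebra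
    have hfin : Module.Finite (PSc p n k e) A := includeRight_finite (L := L)
    exact IsNoetherianRing.of_finite (PSc p n k e) A
  have hchar : CharP A p := by
    refine (CharP.charP_iff_prime_eq_zero Fact.out).2 ?_
    rw [← map_natCast (algebraMap R A) p, CharP.cast_eq_zero, map_zero]
  refine ⟨hloc, hnoeth, hchar, ?_, ?_, hrf, hfr, ?_, ?_⟩
  · infer_instance
  · -- the maximal ideal
    have hle : (maximalIdeal R).map (algebraMap R A) ≤ (maximalIdeal R).comap ρ := by
      rw [Ideal.map_le_iff_le_comap]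
      intro r hr
      rw [Ideal.mem_comap, Ideal.mem_comap, hrf]
      exact Ideal.pow_mem_of_mem _ hr _ hq
    have hmax : maximalIdeal A = (maximalIdeal R).comap ρ := by
      ext a
      rw [Ideal.mem_comap, mem_maximalIdeal, mem_maximalIdeal, mem_nonunits_iff,
        mem_nonunits_iff, isUnit_map_iff]
    rw [hmax]
    refine le_antisymm ?_ hle
    intro a ha
    obtain ⟨c, hc⟩ := hcst a
    have h1 := hle hc
    rw [Ideal.mem_comap, map_sub, hρC] at h1
    rw [Ideal.mem_comap] at ha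
    have h2 : σ c ∈ maximalIdeal R := by
      have := sub_mem ha h1
      rwa [sub_sub_cancel] at this
    have h3 : c = 0 := by
      by_contra hne
      have h4 : IsUnit (σ c) := (isUnit_iff_ne_zero.2 hne).map σ
      exact (mem_maximalIdeal _).1 h2 h4
    rw [h3, map_zero, map_zero, TensorProduct.tmul_zero, sub_zero] at hc
    exact hc
  · -- finiteness
    have h1 : ψ = ρ.comp
        ((Algebra.TensorProduct.includeRight : PSc p n k e →ₐ[L] A).toRingHom.comp
          (toPSc p n k e).toRingHom) := by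
      ext f
      change ψ f = ρ ((1 : R) ⊗ₜ[L] (toPSc p n k e f))
      rw [hρ, one_pow, one_mul]
    rw [h1] at hψ
    exact RingHom.Finite.of_comp_finite hψ
  · intro r
    obtain ⟨a, ha⟩ := hσ r
    exact ⟨(1 : R) ⊗ₜ[L] toPSc p n k e (C a), by rwa [hρC]⟩

end Core

/-- TASK AK-6: the relative Frobenius. -/
theorem exists_relFrob (p : ℕ) [Fact p.Prime] {R : Type u} [CommRing R] [IsLocalRing R]
    [IsNoetherianRing R] [IsAdicComplete (maximalIdeal R) R] [CharP R p]
    [CharP (ResidueField R) p] {n : ℕ}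
    (x : Fin n → R) (hx : ∀ i, x i ∈ maximalIdeal R)
    (hxl : Module.length R (R ⧸ Ideal.span (Set.range x)) ≠ ⊤)
    (σ : ResidueField R →+* R) (hσ : ∀ a, residue R (σ a) = a) (e : ℕ) :
    ∃ (A : Type u) (_ : CommRing A) (_ : IsLocalRing A) (_ : IsNoetherianRing A) (_ : CharP A p)
      (_ : Algebra R A) (ρ : A →+* R), RelFrob p e R A ρ ∧
      ∀ (S₁ : Type u) [CommRing S₁] [IsLocalRing S₁] [IsAdicComplete (maximalIdeal S₁) S₁]
        (g : R →+* S₁) (_ : ∀ r ∈ maximalIdeal R, g r ∈ maximalIdeal S₁)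
        (τ : ResidueField R →+* S₁) (_ : ∀ a, τ a ^ p ^ e = g (σ a)),
        ∃ h : A →+* S₁, ∀ r, h (algebraMap R A r) = g r := by
  have hq : 0 < p ^ e := pow_pos (Fact.out : p.Prime).pos e
  have hσ' : ∀ r : R, ∃ a : ResidueField R, r - σ a ∈ maximalIdeal R := by
    intro r
    refine ⟨residue R r, ?_⟩
    rw [← residue_eq_zero_iff, map_sub, hσ, sub_self]
  -- `m^M ≤ (x)`
  obtain ⟨M, hM⟩ : ∃ M, maximalIdeal R ^ M ≤ Ideal.span (Set.range x) := by
    have : Vale.Agent.P202.ell (Ideal.span (Set.range x)) ≠ ⊤ := hxl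
    exact Vale.Agent.P202.exists_pow_le_of_ell_ne_top this
  obtain ⟨M', hM'⟩ : ∃ M', maximalIdeal R ^ M' ≤
      Ideal.span (Set.range fun i => x i ^ p ^ e) := by
    have h1 := Ideal.exists_pow_le_of_le_radical_of_fg (R := R) (I := Ideal.span (Set.range x))
      (J := Ideal.span (Set.range fun i => x i ^ p ^ e)) (by
        rw [Ideal.span_le]
        rintro _ ⟨i, rfl⟩
        exact ⟨p ^ e, Ideal.subset_span ⟨i, rfl⟩⟩) (IsNoetherian.noetherian _)
    obtain ⟨N, hN⟩ := h1
    refine ⟨M * N, ?_⟩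
    rw [pow_mul]
    exact (Ideal.pow_right_mono hM N).trans hN
  obtain ⟨ψ₀, hψ₀C, hψ₀X⟩ := CZ.exists_powerSeries_hom (maximalIdeal R) σ x hx
  obtain ⟨ψ, hψC, hψX⟩ := CZ.exists_powerSeries_hom (maximalIdeal R) σ (fun i => x i ^ p ^ e)
    (fun i => Ideal.pow_mem_of_mem _ (hx i) _ hq)
  have hψfin : ψ.Finite := by
    let : Algebra (MvPowerSeries (Fin n) (ResidueField R)) R := ψ.toAlgebra
    refine CZ.finite_over_powerSeries (M := M') (fun z => ?_) (fun i => ?_) ?_
    · obtain ⟨a, ha⟩ := hσ' z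
      refine ⟨a, ?_⟩
      change z - ψ (C a) ∈ _
      rwa [hψC]
    · change ψ (X i) ∈ _
      rw [hψX]
      exact Ideal.pow_mem_of_mem _ (hx i) _ hq
    · change _ ≤ Ideal.span (Set.range fun i => ψ (X i))
      simp only [hψX]
      exact hM'
  let : Algebra (MvPowerSeries (Fin n) (ResidueField R)) R := ψ₀.toAlgebra
  have hfin : Module.Finite (MvPowerSeries (Fin n) (ResidueField R)) R := by
    refine CZ.finite_over_powerSeries (M := M) (fun z => ?_) (fun i => ?_) ?_
    · obtain ⟨a, ha⟩ := hσ' z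
      refine ⟨a, ?_⟩
      change z - ψ₀ (C a) ∈ _
      rwa [hψ₀C]
    · change ψ₀ (X i) ∈ _
      rw [hψ₀X]
      exact hx i
    · change _ ≤ Ideal.span (Set.range fun i => ψ₀ (X i))
      simp only [hψ₀X]
      exact hM
  have hC : ∀ a, algebraMap (MvPowerSeries (Fin n) (ResidueField R)) R (C a) = σ a := hψ₀C
  have hX : ∀ i, algebraMap (MvPowerSeries (Fin n) (ResidueField R)) R (X i) ∈
      maximalIdeal R := by
    intro i
    change ψ₀ (X i) ∈ _
    rw [hψ₀X]
    exact hx i
  have hψX' : ∀ i, ψ (X i) =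
      algebraMap (MvPowerSeries (Fin n) (ResidueField R)) R (X i) ^ p ^ e := by
    intro i
    change ψ (X i) = ψ₀ (X i) ^ p ^ e
    rw [hψX, hψ₀X]
  obtain ⟨ρ, hρ⟩ := exists_rho p e σ hC hX ψ hψC hψX'
  obtain ⟨h1, h2, h3, h4⟩ := relFrob_core p e σ hC hX ψ hψC hψX' hσ' ρ hρ hψfin
    (flat_PSc p n (ResidueField R) e)
  refine ⟨_, _, h1, h2, h3, _, ρ, h4, ?_⟩
  intro S₁ _ _ _ g hg τ hτ
  obtain ⟨χ, hχC, hχX⟩ := CZ.exists_powerSeries_hom (maximalIdeal S₁) τ (fun i => g (x i))
    (fun i => hg _ (hx i))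
  have h5 : g.comp ψ₀ = χ.comp (cfrob p n (ResidueField R) e) := by
    apply powerSeries_hom_ext (maximalIdeal S₁)
    · intro a
      rw [RingHom.comp_apply, RingHom.comp_apply, hψ₀C, cfrob, MvPowerSeries.map_C, hχC,
        iterateFrobenius_def, map_pow, hτ]
    · intro i
      rw [RingHom.comp_apply, RingHom.comp_apply, hψ₀X, cfrob, MvPowerSeries.map_X, hχX]
    · intro i
      rw [RingHom.comp_apply, hψ₀X]
      exact hg _ (hx i)
  obtain ⟨F, hF⟩ := exists_tensor_hom (L := MvPowerSeries (Fin n) (ResidueField R)) (R := R)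
    (P := PSc p n (ResidueField R) e) (S := S₁) g
    (χ.comp (toPSc p n (ResidueField R) e).symm.toRingHom) (fun l => congr($h5 l))
  refine ⟨F, fun r => ?_⟩
  have h6 := hF r 1
  rw [map_one, mul_one] at h6
  exact h6

end Vale.Agent.P202.CharP.ArbK
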