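import Vale.Agent.P202.CharP.ArbK.Defs
import Vale.Agent.P202.CharP.ArbK.Coef
import Vale.Agent.P202.CharP.ArbK.FlatPS
import Vale.Agent.P202.FinLen
import Mathlib.RingTheory.AdicCompletion.Exactness

/-!
P202-AK-5: a flat extension of a complete Noetherian local ring of characteristic `p` containing
`p^e`-th roots of the elements of a given subfield.
-/

namespace Vale.Agent.P202.CharP.ArbK

open IsLocalRing TensorProduct MvPowerSeries

universe u

/-- the image of a complete Noetherian local ring is complete. -/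
theorem isAdicComplete_of_surjective {L M : Type*} [CommRing L] [IsLocalRing L]
    [IsNoetherianRing L] [IsAdicComplete (maximalIdeal L) L] [CommRing M] [IsLocalRing M]
    (j : L →+* M) (hj : Function.Surjective j) : IsAdicComplete (maximalIdeal M) M := by
  have hN : IsNoetherianRing M := isNoetherianRing_of_surjective L M j hj
  let _ : Algebra L M := j.toAlgebra
  have hmap : (maximalIdeal L).map (algebraMap L M) = maximalIdeal M := by
    apply eq_maximalIdeal
    refine Ideal.IsMaximal.map_of_surjective_of_ker_le hj ?_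
    exact le_maximalIdeal (RingHom.ker_ne_top j)
  have h1 : IsPrecomplete (maximalIdeal L) M := by
    rw [← AdicCompletion.of_surjective_iff]
    intro y
    have hj' : Function.Surjective (Algebra.linearMap L M) := hj
    obtain ⟨x, rfl⟩ := AdicCompletion.map_surjective (maximalIdeal L) hj' y
    obtain ⟨z, rfl⟩ := AdicCompletion.of_surjective (maximalIdeal L) L x
    exact ⟨Algebra.linearMap L M z, (AdicCompletion.map_of ..).symm⟩
  have h2 : IsPrecomplete (maximalIdeal M) M := by
    rw [← hmap]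
    exact IsPrecomplete.map_algebraMap_iff.mpr h1
  have h3 : IsHausdorff (maximalIdeal M) M :=
    IsHausdorff.of_le_jacobson _ _ (by rw [IsLocalRing.jacobson_eq_maximalIdeal ⊥ bot_ne_top])
  exact { h2, h3 with }

/-- TASK AK-5: a flat extension containing `p^e`-th roots of the elements of a subfield. -/
theorem exists_root_ext (p : ℕ) [Fact p.Prime] {S : Type u} [CommRing S] [IsLocalRing S]
    [IsNoetherianRing S] [IsAdicComplete (maximalIdeal S) S] [CharP S p] {k : Type u} [Field k]
    [CharP k p] (τ₀ : k →+* S) (e : ℕ) :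
    ∃ (S₁ : Type u) (_ : CommRing S₁) (_ : IsLocalRing S₁) (_ : IsNoetherianRing S₁)
      (_ : IsAdicComplete (maximalIdeal S₁) S₁) (_ : CharP S₁ p) (_ : Algebra S S₁)
      (_ : Module.Flat S S₁) (_ : IsLocalHom (algebraMap S S₁)) (τ : k →+* S₁),
      Module.length S₁ (S₁ ⧸ (maximalIdeal S).map (algebraMap S S₁)) ≠ ⊤ ∧
      ∀ a, τ a ^ p ^ e = algebraMap S S₁ (τ₀ a) := by
  have hq : p ^ e ≠ 0 := pow_ne_zero _ (Fact.out : p.Prime).ne_zero
  have hkS : CharP (ResidueField S) p := by
    rw [CharP.charP_iff_prime_eq_zero (Fact.out : p.Prime)]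
    rw [← map_natCast (residue S), CharP.cast_eq_zero, map_zero]
  obtain ⟨v, Θ, hΘ, hΘm⟩ := exists_powerSeries_surjection p (S := S)
  obtain ⟨ι, hι⟩ := exists_lift p Θ hΘ τ₀
  let L := MvPowerSeries (Fin v) (ResidueField S)
  have hLp : CharP L p := charP_mvPowerSeries
  let _ : Algebra L S := Θ.toAlgebra
  have hflat : Module.Flat L (Fr p L e) := flat_Fr_powerSeries p (ResidueField S) v e
  have hal : ∀ l : L, algebraMap L (Fr p L e) l = toFr p L e (l ^ p ^ e) := fun l => rfl
  have hloc : IsLocalHom (algebraMap L (Fr p L e)) := by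
    refine ⟨fun l hl => ?_⟩
    have h1 : IsUnit (l ^ p ^ e : L) := hl
    exact (isUnit_pow_iff hq).mp h1
  have hff : Module.FaithfullyFlat L (Fr p L e) := Module.FaithfullyFlat.of_flat_of_isLocalHom
  have hnt : Nontrivial (S ⊗[L] Fr p L e) := inferInstance
  -- the surjection from `L`
  let j : L →+* S ⊗[L] Fr p L e :=
    (Algebra.TensorProduct.includeRight : Fr p L e →ₐ[L] S ⊗[L] Fr p L e).toRingHom.comp
      (toFr p L e).toRingHom
  have hjdef : ∀ l : L, j l = (1 : S) ⊗ₜ[L] (toFr p L e l) := fun l => rfl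
  have hjq : ∀ l : L, j (l ^ p ^ e) = (Θ l) ⊗ₜ[L] (1 : Fr p L e) := by
    intro l
    rw [hjdef, ← hal, Algebra.algebraMap_eq_smul_one, ← TensorProduct.smul_tmul,
      Algebra.smul_def, mul_one]
    rfl
  have hj : Function.Surjective j := by
    intro z
    induction z using TensorProduct.induction_on with
    | zero => exact ⟨0, map_zero j⟩
    | tmul s a =>
      obtain ⟨l, rfl⟩ := hΘ s
      refine ⟨l ^ p ^ e * (toFr p L e).symm a, ?_⟩
      rw [map_mul, hjq, hjdef, Algebra.TensorProduct.tmul_mul_tmul, mul_one, one_mul,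
        RingEquiv.apply_symm_apply]
    | add x y hx hy =>
      obtain ⟨x', rfl⟩ := hx
      obtain ⟨y', rfl⟩ := hy
      exact ⟨x' + y', map_add j _ _⟩
  have i1 : IsLocalRing (S ⊗[L] Fr p L e) := IsLocalRing.of_surjective' j hj
  have i2 : IsNoetherianRing (S ⊗[L] Fr p L e) := isNoetherianRing_of_surjective L _ j hj
  have i3 : IsAdicComplete (maximalIdeal (S ⊗[L] Fr p L e)) (S ⊗[L] Fr p L e) :=
    isAdicComplete_of_surjective j hj
  have i4 : CharP (S ⊗[L] Fr p L e) p := by
    rw [CharP.charP_iff_prime_eq_zero (Fact.out : p.Prime)]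
    rw [← map_natCast (algebraMap S (S ⊗[L] Fr p L e)), CharP.cast_eq_zero, map_zero]
  have i5 : Module.Flat S (S ⊗[L] Fr p L e) := inferInstance
  have hjl : IsLocalHom j := IsLocalHom.of_surjective j hj
  have hjm : ∀ l ∈ maximalIdeal L, j l ∈ maximalIdeal (S ⊗[L] Fr p L e) := by
    intro l hl
    rw [mem_maximalIdeal, mem_nonunits_iff] at hl ⊢
    exact fun h => hl (isUnit_of_map_unit j l h)
  have i6 : IsLocalHom (algebraMap S (S ⊗[L] Fr p L e)) := by
    refine ⟨fun s hs => ?_⟩
    obtain ⟨l, rfl⟩ := hΘ s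
    have h1 : IsUnit (j (l ^ p ^ e)) := by
      rw [hjq]
      exact hs
    have h2 := isUnit_of_map_unit j _ h1
    exact ((isUnit_pow_iff hq).mp h2).map Θ
  refine ⟨S ⊗[L] Fr p L e, inferInstance, i1, i2, i3, i4, inferInstance, i5, i6,
    j.comp ι, ?_, ?_⟩
  · have hmap : (maximalIdeal L).map j = maximalIdeal (S ⊗[L] Fr p L e) := by
      apply eq_maximalIdeal
      refine Ideal.IsMaximal.map_of_surjective_of_ker_le hj ?_
      exact le_maximalIdeal (RingHom.ker_ne_top j)
    have hfg : (maximalIdeal (S ⊗[L] Fr p L e)).FG := IsNoetherian.noetherian _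
    have hle : maximalIdeal (S ⊗[L] Fr p L e) ≤
        ((maximalIdeal S).map (algebraMap S (S ⊗[L] Fr p L e))).radical := by
      rw [← hmap, CZ.maximalIdeal_eq, CZ.mm, Ideal.map_span, Ideal.span_le]
      rintro _ ⟨_, ⟨i, rfl⟩, rfl⟩
      refine ⟨p ^ e, ?_⟩
      rw [← map_pow, hjq]
      refine Ideal.mem_map_of_mem (algebraMap S (S ⊗[L] Fr p L e)) ?_
      rw [← hΘm]
      exact Ideal.subset_span ⟨i, rfl⟩
    obtain ⟨N, hN⟩ := Ideal.exists_pow_le_of_le_radical_of_fg hle hfg
    exact ell_ne_top_of_pow_le hN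
  · intro a
    rw [RingHom.comp_apply, ← map_pow, hjq, hι]
    rfl

end Vale.Agent.P202.CharP.ArbK
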