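import Vale.Agent.P202.CharP.ArbK.Defs
import Vale.Agent.P202.CharP.ArbK.FlatUnr
import Vale.Agent.P202.CharP.ArbK.RelFrobEx
import Vale.Agent.P202.CharP.ArbK.RootExt

/-!
P202-AK-12: existence of the data `A`, `S₁`, `ρ`.
-/

namespace Vale.Agent.P202.CharP.ArbK

open IsLocalRing TensorProduct MvPowerSeries Filter Topology

universe u

/-- a local ring which is an algebra over a ring of prime characteristic `p` has
characteristic `p`. -/
theorem charP_of_algebra_local (p : ℕ) [Fact p.Prime] (R : Type*) [CommRing R] [CharP R p]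
    (S : Type*) [CommRing S] [IsLocalRing S] [Algebra R S] : CharP S p :=
  (CharP.charP_iff_prime_eq_zero Fact.out).mpr (by
    rw [← map_natCast (algebraMap R S), CharP.cast_eq_zero, map_zero])

/-- AK-12: existence of the data. -/
theorem exists_datum (p : ℕ) [Fact p.Prime] {R S : Type u} [CommRing R] [IsLocalRing R]
    [IsNoetherianRing R] [IsAdicComplete (maximalIdeal R) R] [CharP R p]
    [CharP (ResidueField R) p] [CommRing S] [IsLocalRing S] [IsNoetherianRing S]
    [IsAdicComplete (maximalIdeal S) S] [Algebra R S] [IsLocalHom (algebraMap R S)]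
    [Module.Flat R S] {n : ℕ} (x : Fin n → R) (hx : ∀ i, x i ∈ maximalIdeal R)
    (hxl : Module.length R (R ⧸ Ideal.span (Set.range x)) ≠ ⊤) (e : ℕ) :
    ∃ (A S₁ : Type u) (_ : CommRing A) (_ : IsLocalRing A) (_ : IsNoetherianRing A)
      (_ : CharP A p) (_ : CommRing S₁) (_ : IsLocalRing S₁) (_ : IsNoetherianRing S₁)
      (_ : Algebra R A) (_ : Algebra A S₁) (_ : Algebra R S₁) (_ : Algebra S S₁)
      (_ : IsScalarTower R A S₁) (_ : IsScalarTower R S S₁) (_ : IsLocalHom (algebraMap A S₁))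
      (_ : IsLocalHom (algebraMap S S₁)) (_ : Module.Flat A S₁) (_ : Module.Flat S S₁)
      (ρ : A →+* R), RelFrob p e R A ρ ∧
      Module.length S₁ (S₁ ⧸ (maximalIdeal S).map (algebraMap S S₁)) ≠ ⊤ := by
  have hSp : CharP S p := charP_of_algebra_local p R S
  obtain ⟨σ, hσ⟩ := exists_coefficient_field p (R := R)
  obtain ⟨S₁, i1, i2, i3, i4, i5, i6, i7, i8, τ, hlen, hτ⟩ :=
    exists_root_ext p (S := S) (k := ResidueField R) ((algebraMap R S).comp σ) e
  obtain ⟨A, j1, j2, j3, j4, j5, ρ, hrel, hlift⟩ := exists_relFrob p x hx hxl σ hσ e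
  have hg : ∀ r ∈ maximalIdeal R,
      ((algebraMap S S₁).comp (algebraMap R S)) r ∈ maximalIdeal S₁ := by
    intro r hr
    have h1 : algebraMap R S r ∈ maximalIdeal S :=
      ((local_hom_TFAE (algebraMap R S)).out 0 2 rfl rfl).mp inferInstance
        (Ideal.mem_map_of_mem _ hr)
    exact ((local_hom_TFAE (algebraMap S S₁)).out 0 2 rfl rfl).mp inferInstance
        (Ideal.mem_map_of_mem _ h1)
  obtain ⟨h, hh⟩ := hlift S₁ ((algebraMap S S₁).comp (algebraMap R S)) hg τ
    (fun a => by rw [hτ a]; rfl)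
  let a1 : Algebra A S₁ := h.toAlgebra
  let a2 : Algebra R S₁ := ((algebraMap S S₁).comp (algebraMap R S)).toAlgebra
  have t1 : IsScalarTower R A S₁ := IsScalarTower.of_algebraMap_eq fun r => (hh r).symm
  have t2 : IsScalarTower R S S₁ := IsScalarTower.of_algebraMap_eq fun r => rfl
  have f1 : Module.Flat R S₁ := Module.Flat.trans R S S₁
  have f2 : Module.Flat R A := hrel.flat
  have hmax : (maximalIdeal A).map (algebraMap A S₁) ≤ maximalIdeal S₁ := by
    rw [hrel.max, Ideal.map_map, ← IsScalarTower.algebraMap_eq R A S₁, Ideal.map_le_iff_le_comap]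
    exact hg
  have l1 : IsLocalHom (algebraMap A S₁) :=
    ((local_hom_TFAE (algebraMap A S₁)).out 0 2 rfl rfl).mpr hmax
  have f3 : Module.Flat A S₁ := flat_of_unramified (R := R) hrel.max hmax
  exact ⟨A, S₁, j1, j2, j3, j4, i1, i2, i3, j5, a1, a2, i6, t1, t2, l1, i8, f3, i7, ρ, hrel, hlen⟩

end Vale.Agent.P202.CharP.ArbK
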