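import Vale.Agent.P202.CharP.DefsF

/-!
P202-AK, definitions: relative Frobenius, restriction of scalars along a ring homomorphism,
coefficientwise Frobenius on power series.
-/

namespace Vale.Agent.P202.CharP.ArbK

open IsLocalRing TensorProduct

universe u

/-- the ring `R`, seen as an `A`-algebra along `ρ`. -/
def RA {A R : Type*} [CommRing A] [CommRing R] (ρ : A →+* R) : Type _ :=
  (fun (_ : A →+* R) => R) ρ

/-- the module `N` with scalars restricted along `ρ`. -/
def RM {A R : Type*} [CommRing A] [CommRing R] (ρ : A →+* R) (N : Type*) : Type _ :=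
  (fun (_ : A →+* R) => N) ρ

section

variable {A R : Type*} [CommRing A] [CommRing R] (ρ : A →+* R)

instance (N : Type*) [AddCommGroup N] : AddCommGroup (RM ρ N) := inferInstanceAs (AddCommGroup N)

instance (N : Type*) [AddCommGroup N] [Module R N] : Module A (RM ρ N) := Module.compHom N ρ

instance : CommRing (RA ρ) := inferInstanceAs (CommRing R)

instance : Algebra A (RA ρ) := ρ.toAlgebra

instance [IsLocalRing R] : IsLocalRing (RA ρ) := inferInstanceAs (IsLocalRing R)

instance [IsNoetherianRing R] : IsNoetherianRing (RA ρ) := inferInstanceAs (IsNoetherianRing R)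

instance (p : ℕ) [CharP R p] : CharP (RA ρ) p := inferInstanceAs (CharP R p)

/-- the identity `R ≃ RA ρ`. -/
def toRA : R ≃+* RA ρ := RingEquiv.refl R

end

/-- `A` is an unramified flat extension of `R` through which the `p^e`-th power Frobenius of `R`
factors: `R → A → R` and `A → R → A` are the Frobenius maps, `A → R` is finite and surjective on
residue fields. -/
structure RelFrob (p e : ℕ) (R A : Type*) [CommRing R] [IsLocalRing R] [CommRing A]
    [IsLocalRing A] [Algebra R A] (ρ : A →+* R) : Prop where
  flat : Module.Flat R A
  max : maximalIdeal A = (maximalIdeal R).map (algebraMap R A)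
  rf : ∀ r : R, ρ (algebraMap R A r) = r ^ p ^ e
  fr : ∀ a : A, algebraMap R A (ρ a) = a ^ p ^ e
  fin : ρ.Finite
  res : ∀ r : R, ∃ a : A, r - ρ a ∈ maximalIdeal R

/-- power series over `k`, as an algebra over themselves through the `p^e`-th power Frobenius
of the coefficients. -/
def PSc (p n : ℕ) (k : Type*) (e : ℕ) : Type _ := (fun _ _ => MvPowerSeries (Fin n) k) p e

section

variable (p : ℕ) [Fact p.Prime] (n : ℕ) (k : Type*) [Field k] [CharP k p] (e : ℕ)

noncomputable instance : CommRing (PSc p n k e) := inferInstanceAs (CommRing (MvPowerSeries (Fin n) k))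

/-- the `p^e`-th power Frobenius of the coefficients. -/
noncomputable def cfrob : MvPowerSeries (Fin n) k →+* MvPowerSeries (Fin n) k :=
  MvPowerSeries.map (iterateFrobenius k p e)

noncomputable instance : Algebra (MvPowerSeries (Fin n) k) (PSc p n k e) :=
  (cfrob p n k e).toAlgebra

/-- the identity. -/
noncomputable def toPSc : MvPowerSeries (Fin n) k ≃+* PSc p n k e := RingEquiv.refl _

end

end Vale.Agent.P202.CharP.ArbK
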