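import Vale.Agent.P202.CharP.ArbK.Defs
import Vale.Agent.P202.CharP.BaseCh
import Vale.Agent.P202.CharP.RealAux
import Vale.Agent.P202.CharP.TotBasic

/-!
P202-AK, AK-8: Koszul homology and flat base change.
-/

namespace Vale.Agent.P202.CharP.ArbK

open IsLocalRing TensorProduct Submodule

universe u

namespace KkFlat

section Gen

variable {S : Type*} [CommRing S] (S₁ : Type*) [CommRing S₁] [Algebra S S₁]

/-- the Koszul matrix under a ring homomorphism. -/
theorem kos_map : ∀ (n : ℕ) (y : Fin n → S),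
    kos n (fun j => algebraMap S S₁ (y j)) = (kos n y).map (algebraMap S S₁)
  | 0, _ => by
    ext a b
    exact (map_zero (algebraMap S S₁)).symm
  | n + 1, y => by
    have ih := kos_map n (fun j => y j.succ)
    have h1 : ∀ a b, kos n (fun j => algebraMap S S₁ (y j.succ)) a b =
        algebraMap S S₁ (kos n (fun j => y j.succ) a b) := fun a b => by
      rw [ih]; rfl
    ext a b
    rcases a with a | a <;> rcases b with b | b
    · exact h1 a b
    · change (algebraMap S S₁ (y 0) • (1 : Matrix (KIdx n) (KIdx n) S₁)) a b =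
        algebraMap S S₁ ((y 0 • (1 : Matrix (KIdx n) (KIdx n) S)) a b)
      rw [Matrix.smul_apply, Matrix.smul_apply, Matrix.one_apply, Matrix.one_apply, smul_eq_mul,
        smul_eq_mul, map_mul]
      split_ifs <;> simp
    · exact (map_zero (algebraMap S S₁)).symm
    · change -(kos n (fun j => algebraMap S S₁ (y j.succ)) a b) =
        algebraMap S S₁ (-(kos n (fun j => y j.succ) a b))
      rw [h1, map_neg]

variable {ι : Type*} [Fintype ι] {M : Type*} [AddCommGroup M] [Module S M]

/-- base change of families of cycles. -/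
theorem zz_bc [Module.Flat S S₁] {𝕋 : Type*} [AddCommGroup 𝕋] [Module S 𝕋] (D : 𝕋 →ₗ[S] 𝕋)
    (Y X : ℤ → Submodule S 𝕋) (δ : ℤ) :
    zz (D.baseChange S₁) (bcf S₁ Y) (bcf S₁ X) δ = (zz D Y X δ).baseChange S₁ := by
  rw [zz, zz, bcf, bcf, baseChange_inf, baseChange_comap]

theorem bb_bc {𝕋 : Type*} [AddCommGroup 𝕋] [Module S 𝕋] (D : 𝕋 →ₗ[S] 𝕋)
    (Y X : ℤ → Submodule S 𝕋) (δ : ℤ) :
    bb (D.baseChange S₁) (bcf S₁ Y) (bcf S₁ X) δ = (bb D Y X δ).baseChange S₁ := by
  rw [bb, bb, bcf, bcf, baseChange_sup', baseChange_map]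

variable [DecidableEq ι]

/-- tensor products commute with finite products. -/
noncomputable def eqv (S : Type*) [CommRing S] (S₁ : Type*) [CommRing S₁] [Algebra S S₁]
    (ι : Type*) [Fintype ι] [DecidableEq ι] (M : Type*) [AddCommGroup M]
    [Module S M] : (S₁ ⊗[S] (ι → M)) ≃ₗ[S₁] (ι → S₁ ⊗[S] M) :=
  TensorProduct.piRight S S₁ S₁ (fun _ => M)

theorem eqv_tmul (s : S₁) (f : ι → M) : eqv S S₁ ι M (s ⊗ₜ f) = fun a => s ⊗ₜ f a := by
  rw [eqv, TensorProduct.piRight_apply, TensorProduct.piRightHom_tmul]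

theorem eqv_tot (deg : ι → ℤ) (Q : Matrix ι ι S) (z : S₁ ⊗[S] (ι → M)) :
    tot deg (Q.map (algebraMap S S₁)) (0 : (S₁ ⊗[S] M) →ₗ[S₁] (S₁ ⊗[S] M)) (eqv S S₁ ι M z) =
      eqv S S₁ ι M ((tot deg Q (0 : M →ₗ[S] M)).baseChange S₁ z) := by
  induction z using TensorProduct.induction_on with
  | zero => simp only [map_zero]
  | add x y hx hy => simp only [map_add, hx, hy]
  | tmul s f =>
    rw [LinearMap.baseChange_tmul, eqv_tmul, eqv_tmul]
    funext a
    rw [tot_zero_apply, tot_zero_apply, TensorProduct.tmul_sum]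
    refine Finset.sum_congr rfl fun b _ => ?_
    rw [Matrix.map_apply, algebraMap_smul, TensorProduct.tmul_smul]

theorem eqv_pi (p : ι → Submodule S M) :
    ((Submodule.pi Set.univ p).baseChange S₁).map (eqv S S₁ ι M).toLinearMap =
      Submodule.pi Set.univ fun a => (p a).baseChange S₁ := by
  apply le_antisymm
  · rw [Submodule.map_le_iff_le_comap, Submodule.baseChange_eq_span, span_le]
    rintro _ ⟨f, hf, rfl⟩
    rw [SetLike.mem_coe, Submodule.mem_comap, Submodule.mem_pi]
    intro a ha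
    change eqv S S₁ ι M (1 ⊗ₜ f) a ∈ _
    rw [eqv_tmul]
    exact tmul_mem_baseChange_of_mem _ (Submodule.mem_pi.1 hf a ha)
  · intro g hg
    rw [Submodule.mem_pi] at hg
    rw [← Finset.univ_sum_single g]
    refine Submodule.sum_mem _ fun a _ => ?_
    have h1 : (p a).baseChange S₁ ≤ (((Submodule.pi Set.univ p).baseChange S₁).map
        (eqv S S₁ ι M).toLinearMap).comap (LinearMap.single S₁ (fun _ : ι => S₁ ⊗[S] M) a) := by
      rw [Submodule.baseChange_eq_span S₁ (p a), span_le]
      rintro _ ⟨m, hm, rfl⟩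
      refine ⟨1 ⊗ₜ Pi.single a m, tmul_mem_baseChange_of_mem _ ?_, ?_⟩
      · rw [Submodule.mem_pi]
        intro b _
        by_cases hb : b = a
        · subst hb
          rw [Pi.single_eq_same]
          exact hm
        · rw [Pi.single_eq_of_ne hb]
          exact Submodule.zero_mem _
      · change eqv S S₁ ι M (1 ⊗ₜ Pi.single a m) = Pi.single a (1 ⊗ₜ m)
        rw [eqv_tmul]
        funext b
        by_cases hb : b = a
        · subst hb
          rw [Pi.single_eq_same, Pi.single_eq_same]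
        · rw [Pi.single_eq_of_ne hb, Pi.single_eq_of_ne hb, TensorProduct.tmul_zero]
    exact h1 (hg a (Set.mem_univ a))

omit [Fintype ι] [DecidableEq ι] in
theorem conc_bc (X : Submodule S M) (p : ℤ) :
    (conc X p).baseChange S₁ = conc (X.baseChange S₁) p := by
  unfold conc
  split_ifs
  · rfl
  · exact Submodule.baseChange_bot _

theorem eqv_lift (deg : ι → ℤ) (X : Submodule S M) (δ : ℤ) :
    ((lift deg (conc X) δ).baseChange S₁).map (eqv S S₁ ι M).toLinearMap =
      lift deg (conc (X.baseChange S₁)) δ := by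
  unfold lift
  rw [eqv_pi]
  congr 1
  funext a
  rw [conc_bc]

/-- homology with coefficients in a subquotient after flat base change. -/
theorem kh_bc [Module.Flat S S₁] (deg : ι → ℤ) (Q : Matrix ι ι S) (hQ : IsCx deg Q) (i : ℤ) :
    kh deg (Q.map (algebraMap S S₁)) (S₁ ⊗[S] M) i =
      rl ((bb (tot deg Q (0 : M →ₗ[S] M)) (lift deg (conc ⊤)) (lift deg (conc ⊥)) i).baseChange S₁)
        ((zz (tot deg Q (0 : M →ₗ[S] M)) (lift deg (conc ⊤)) (lift deg (conc ⊥)) i).baseChange S₁)
        := by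
  rw [← zz_bc, ← bb_bc]
  symm
  refine hh_map_eq _ _ (eqv S S₁ ι M).toLinearMap (fun z => eqv_tot S₁ deg Q z) _ _ _ _ ?_ ?_ ?_ ?_ i
  · intro δ
    refine Submodule.baseChange_mono S₁ ?_
    intro f hf
    rw [khc_mem_lift] at hf ⊢
    exact fun a => conc_mono bot_le _ (hf a)
  · intro δ x hx
    have h1 : (lift deg (conc (⊤ : Submodule S M)) δ).map (tot deg Q (0 : M →ₗ[S] M)) ≤
        lift deg (conc (⊤ : Submodule S M)) (δ - 1) := by
      rintro _ ⟨f, hf, rfl⟩
      exact lift_conc_stab deg Q hQ _ _ _ hf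
    have h2 := Submodule.baseChange_mono S₁ h1
    rw [baseChange_map] at h2
    exact h2 (Submodule.mem_map_of_mem hx)
  · intro δ
    rw [bcf, eqv_lift, Submodule.baseChange_top]
  · intro δ x _
    rw [← Submodule.baseChange_bot (R := S) (A := S₁) (M := M), ← eqv_lift]
    constructor
    · rintro ⟨z, hz, hzx⟩
      have : z = x := (eqv S S₁ ι M).injective hzx
      rw [← this]
      exact hz
    · intro h
      exact Submodule.mem_map_of_mem h

end Gen

/-- lengths of subquotients after flat base change. -/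
theorem rl_bc {S S₁ : Type*} [CommRing S] [IsLocalRing S] [CommRing S₁] [IsLocalRing S₁]
    [Algebra S S₁] [Module.Flat S S₁] [IsLocalHom (algebraMap S S₁)] {V : Type*} [AddCommGroup V]
    [Module S V] (X Y : Submodule S V) :
    rl (X.baseChange S₁) (Y.baseChange S₁) =
      Module.length S₁ (S₁ ⧸ (maximalIdeal S).map (algebraMap S S₁)) * rl X Y := by
  obtain ⟨g, hg, hk⟩ := exists_quot_baseChange S₁ X Y (X.submoduleOf Y).mkQ
    (Submodule.mkQ_surjective _) (Submodule.ker_mkQ _)
  rw [rl_eq_length_of_surjective g hg hk, IsLocalRing.length_baseChange S S₁, mul_comm]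
  rfl

end KkFlat

open KkFlat in
/-- TASK AK-8: Koszul homology and flat base change. -/
theorem kk_flat {S S₁ : Type u} [CommRing S] [IsLocalRing S] [IsNoetherianRing S]
    [CommRing S₁] [IsLocalRing S₁] [IsNoetherianRing S₁] [Algebra S S₁] [Module.Flat S S₁]
    [IsLocalHom (algebraMap S S₁)] {n : ℕ} (y : Fin n → S) (M : Type u) [AddCommGroup M]
    [Module S M] (w : ℕ)
    (hw : Module.length S₁ (S₁ ⧸ (maximalIdeal S).map (algebraMap S S₁)) = w) (i : ℤ)
    (hfin : kk y M i ≠ ⊤) :
    kk (fun j => algebraMap S S₁ (y j)) (S₁ ⊗[S] M) i = w * kk y M i := by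
  have _ := hfin
  unfold kk
  rw [KkFlat.kos_map S₁ n y, kh_bc S₁ (kdeg n) (kos n y) (kos_isCx n y) i, rl_bc, hw]
  rfl

end Vale.Agent.P202.CharP.ArbK
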