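import Vale.Agent.P202.CharP.ArbK.Defs
import Vale.Agent.P202.CharP.KFr

/-!
P202-AK, task AK-9: lengths, Koszul homology and restriction of scalars along a relative
Frobenius.
-/

namespace Vale.Agent.P202.CharP.ArbK

open IsLocalRing TensorProduct

universe u

lemma algebraMap_RA {A R : Type*} [CommRing A] [CommRing R] (ρ : A →+* R) (a : A) :
    algebraMap A (RA ρ) a = toRA ρ (ρ a) := rfl

section RelF

variable (p : ℕ) [Fact p.Prime] {e : ℕ} {R A : Type u} [CommRing R] [IsLocalRing R]
  [IsNoetherianRing R] [CharP R p] [CommRing A] [IsLocalRing A] [IsNoetherianRing A]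
  [CharP A p] [Algebra R A] {ρ : A →+* R} (H : RelFrob p e R A ρ)

include H

/-- TASK AK-9: lengths, Koszul homology and restriction of scalars along `ρ`. -/
theorem relFrob_basic : ∃ _ : IsLocalHom (algebraMap A (RA ρ)), Module.Finite A (RA ρ) ∧
    Module.length (ResidueField A) (ResidueField (RA ρ)) = 1 := by
  have hloc : IsLocalHom (algebraMap A (RA ρ)) := by
    refine ⟨fun a ha => ?_⟩
    have h1 : IsUnit (ρ a) := ha
    have h2 : IsUnit (a ^ p ^ e) := by
      rw [← H.fr]
      exact h1.map _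
    exact (isUnit_pow_iff (pow_ne_zero e (Fact.out : p.Prime).ne_zero)).1 h2
  refine ⟨hloc, H.fin, ?_⟩
  have hs : Function.Surjective
      (Algebra.linearMap (ResidueField A) (ResidueField (RA ρ))) := by
    intro z
    obtain ⟨r, rfl⟩ := residue_surjective z
    obtain ⟨a, ha⟩ := H.res (show R from r)
    refine ⟨residue A a, ?_⟩
    change residue (RA ρ) (algebraMap A (RA ρ) a) = residue (RA ρ) r
    symm
    rw [← sub_eq_zero, ← map_sub, residue_eq_zero_iff]
    exact ha
  have hi : Function.Injective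
      (Algebra.linearMap (ResidueField A) (ResidueField (RA ρ))) :=
    FaithfulSMul.algebraMap_injective (ResidueField A) (ResidueField (RA ρ))
  rw [← (LinearEquiv.ofBijective _ ⟨hi, hs⟩).length_eq]
  exact Module.length_eq_one _ _

/-- TASK AK-9. -/
theorem kk_RA {n : ℕ} (x : Fin n → R) (i : ℤ) :
    kk (fun j => (toRA ρ (x j) : RA ρ)) (RA ρ) i = kk x R i ∧
    kk (fun j => algebraMap R A (x j)) (RA ρ) i = kk (fun j => x j ^ p ^ e) R i := by
  refine ⟨rfl, ?_⟩
  obtain ⟨hloc, -, h1⟩ := relFrob_basic p H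
  rw [kk_restrict (A := A) (A' := RA ρ) (N := RA ρ) (fun j => algebraMap R A (x j)) 1
    (fun X Y => by rw [length_restrict (A := A) (A' := RA ρ), h1]) i, mul_one]
  have h2 : (fun j => algebraMap A (RA ρ) (algebraMap R A (x j))) =
      fun j => (toRA ρ (x j ^ p ^ e) : RA ρ) := by
    funext j
    rw [algebraMap_RA, H.rf]
  rw [h2]
  rfl

end RelF

/-- powers of `p` of the elements of a power of an ideal. -/
lemma pow_char_mem (p : ℕ) [Fact p.Prime] {R : Type*} [CommRing R] [CharP R p] {n : ℕ}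
    (x : Fin n → R) (e Q : ℕ) {a : R} (ha : a ∈ Ideal.span (Set.range x) ^ Q) :
    a ^ p ^ e ∈ Ideal.span (Set.range fun j => x j ^ p ^ e) ^ Q := by
  have h1 : (iterateFrobenius R p e) a ∈
      (Ideal.span (Set.range x) ^ Q).map (iterateFrobenius R p e) := Ideal.mem_map_of_mem _ ha
  rw [Ideal.map_pow, Ideal.map_span, ← Set.range_comp] at h1
  exact h1

section RelF

variable (p : ℕ) [Fact p.Prime] {e : ℕ} {R A : Type u} [CommRing R] [IsLocalRing R]
  [IsNoetherianRing R] [CharP R p] [CommRing A] [IsLocalRing A] [IsNoetherianRing A]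
  [CharP A p] [Algebra R A] {ρ : A →+* R} (H : RelFrob p e R A ρ)

include H

/-- TASK AK-9: the maximal ideal of `A` acts through high powers. -/
theorem push_RA {n : ℕ} (x : Fin n → R) (e₁ e₂ : ℕ) (he : e = e₁ + e₂) (Q : ℕ)
    (hQ : ∀ a ∈ maximalIdeal R, a ^ p ^ e₁ ∈ Ideal.span (Set.range x) ^ Q) :
    ∀ a ∈ maximalIdeal A, algebraMap A (RA ρ) a ∈
      Ideal.span (Set.range fun j => (toRA ρ (x j ^ p ^ e₂) : RA ρ)) ^ Q := by
  have h1 : maximalIdeal A ≤ (Ideal.span (Set.range fun j => (toRA ρ (x j ^ p ^ e₂) : RA ρ)) ^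
      Q).comap (algebraMap A (RA ρ)) := by
    rw [H.max, Ideal.map_le_iff_le_comap]
    intro r hr
    rw [Ideal.mem_comap, Ideal.mem_comap, algebraMap_RA, H.rf, he, pow_add, pow_mul]
    exact pow_char_mem p x e₂ Q (hQ r hr)
  intro a ha
  exact h1 ha

end RelF

end Vale.Agent.P202.CharP.ArbK
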