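import Vale.Agent.P202.CharP.ArbK.Defs
import Vale.Agent.P202.CharP.KFr
import Vale.Agent.P202.CharP.ArbK.KkFlat
import Vale.Agent.P202.CharP.ArbK.RelBasic

set_option linter.all false

/-!
P202-AK, task AK-11: the Euler characteristic of the relative Frobenius.
-/

namespace Vale.Agent.P202.CharP.ArbK

open IsLocalRing TensorProduct

universe u

section RMod

variable {A R : Type*} [CommRing A] [CommRing R] (ρ : A →+* R)

local instance akchi_mod (N : Type*) [AddCommGroup N] [Module R N] : Module (RA ρ) (RM ρ N) :=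
  inferInstanceAs (Module R N)

local instance akchi_tower (N : Type*) [AddCommGroup N] [Module R N] :
    IsScalarTower A (RA ρ) (RM ρ N) where
  smul_assoc a b x := by
    rw [Algebra.smul_def, mul_smul]
    rfl

/-- functoriality. -/
def akchi_map {N N' : Type*} [AddCommGroup N] [Module R N] [AddCommGroup N'] [Module R N']
    (f : N →ₗ[R] N') : RM ρ N →ₗ[A] RM ρ N' where
  toFun x := f x
  map_add' x y := f.map_add x y
  map_smul' a x := f.map_smul (ρ a) x

lemma akchi_finite [Module.Finite A (RA ρ)] (N : Type*) [AddCommGroup N] [Module R N]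
    [h : Module.Finite R N] : Module.Finite A (RM ρ N) := by
  have h1 : Module.Finite (RA ρ) (RM ρ N) := h
  exact Module.Finite.trans (RA ρ) (RM ρ N)

lemma akchi_kk [IsLocalRing A] [IsLocalRing R] [IsLocalHom (algebraMap A (RA ρ))]
    (hres : Module.length (ResidueField A) (ResidueField (RA ρ)) = 1)
    {n : ℕ} (x : Fin n → A) (N : Type*) [AddCommGroup N] [Module R N] (i : ℤ) :
    kk x (RM ρ N) i = kk (fun j => ρ (x j)) N i := by
  rw [kk_restrict (A := A) (A' := RA ρ) (N := RM ρ N) x 1 (fun X Y => by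
    rw [length_restrict (A := A) (A' := RA ρ), hres]), mul_one]
  rfl

end RMod

section rho

variable {A S S' : Type*} [CommRing A] [IsLocalRing A] [IsNoetherianRing A]
    [CommRing S] [IsLocalRing S] [IsNoetherianRing S] [Algebra A S]
    [IsLocalHom (algebraMap A S)] [Module.Flat A S]
    [CommRing S'] [IsLocalRing S'] [IsNoetherianRing S'] [Algebra A S']
    [IsLocalHom (algebraMap A S')] [Module.Flat A S'] {n : ℕ} (y : Fin n → S) (y' : Fin n → S')

lemma akchi_rho (hfib : ∃ s, maximalIdeal S ^ s ≤ (maximalIdeal A).map (algebraMap A S))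
    (hy : ∀ i, y i ∈ maximalIdeal S)
    (hyl : Module.length S (S ⧸ Ideal.span (Set.range y)) ≠ ⊤)
    (hfib' : ∃ s, maximalIdeal S' ^ s ≤ (maximalIdeal A).map (algebraMap A S'))
    (hy' : ∀ i, y' i ∈ maximalIdeal S')
    (hyl' : Module.length S' (S' ⧸ Ideal.span (Set.range y')) ≠ ⊤)
    (J Q0 : Ideal A) (hJ : ∀ Q : Ideal A, Q.IsPrime → J ≤ Q → Q = Q0 ∨ ringKrullDim (A ⧸ Q) < n)
    (N : Type*) [AddCommGroup N] [Module A N] (hN : Module.Finite A N)
    (hPN : J ≤ Module.annihilator A N) :
    ∃ r : ℤ, kchi y (S ⊗[A] N) = r * kchi y (S ⊗[A] (A ⧸ Q0)) ∧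
      kchi y' (S' ⊗[A] N) = r * kchi y' (S' ⊗[A] (A ⧸ Q0)) := by
  revert hPN
  refine IsNoetherianRing.induction_on_isQuotientEquivQuotientPrime A hN
    (motive := fun N _ _ _ => J ≤ Module.annihilator A N →
      ∃ r : ℤ, kchi y (S ⊗[A] N) = r * kchi y (S ⊗[A] (A ⧸ Q0)) ∧
        kchi y' (S' ⊗[A] N) = r * kchi y' (S' ⊗[A] (A ⧸ Q0))) ?_ ?_ ?_
  · intro N _ _ _ _ _
    have hI : (⊤ : Ideal A) ≤ Module.annihilator A N := by
      rw [Module.annihilator_eq_top_iff.mpr inferInstance]
    have hd : ringKrullDim (A ⧸ (⊤ : Ideal A)) < n := by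
      have hs : Subsingleton (A ⧸ (⊤ : Ideal A)) := Ideal.Quotient.subsingleton_iff.mpr rfl
      rw [ringKrullDim_eq_bot_of_subsingleton]
      exact WithBot.bot_lt_coe _
    exact ⟨0, by rw [psi_eq_zero y hfib hy hyl N ⊤ hI hd, zero_mul],
      by rw [psi_eq_zero y' hfib' hy' hyl' N ⊤ hI hd, zero_mul]⟩
  · intro N _ _ _ Q f hPN
    rw [f.annihilator_eq, Ideal.annihilator_quotient] at hPN
    rcases hJ Q.1 Q.2 hPN with h | hd
    · rw [← h]
      exact ⟨1, by rw [one_mul, psi_congr y f], by rw [one_mul, psi_congr y' f]⟩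
    · refine ⟨0, ?_, ?_⟩
      · rw [psi_congr y f, psi_eq_zero y hfib hy hyl _ Q.1 (by rw [Ideal.annihilator_quotient]) hd,
          zero_mul]
      · rw [psi_congr y' f,
          psi_eq_zero y' hfib' hy' hyl' _ Q.1 (by rw [Ideal.annihilator_quotient]) hd, zero_mul]
  · intro N₁ _ _ _ N₂ _ _ _ N₃ _ _ _ f g hf hg hfg h1 h3 hPN
    obtain ⟨r1, h11, h12⟩ := h1 (hPN.trans (f.annihilator_le_of_injective hf))
    obtain ⟨r3, h31, h32⟩ := h3 (hPN.trans (g.annihilator_le_of_surjective hg))
    refine ⟨r1 + r3, ?_, ?_⟩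
    · rw [psi_add y hyl f g hf hg hfg, h11, h31, add_mul]
    · rw [psi_add y' hyl' f g hf hg hfg, h12, h32, add_mul]

end rho

section RelF

variable (p : ℕ) [Fact p.Prime] {e : ℕ} {R A : Type u} [CommRing R] [IsLocalRing R]
  [IsNoetherianRing R] [CharP R p] [CommRing A] [IsLocalRing A] [IsNoetherianRing A]
  [CharP A p] [Algebra R A] {ρ : A →+* R} (H : RelFrob p e R A ρ)

include H

variable {S₁ : Type u} [CommRing S₁] [IsLocalRing S₁] [IsNoetherianRing S₁] [Algebra A S₁]
  [Algebra R S₁] [IsScalarTower R A S₁] [IsLocalHom (algebraMap A S₁)] [Module.Flat A S₁]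

/-- TASK AK-11: the Euler characteristic of the relative Frobenius. -/
theorem kchi_RA {n : ℕ} (hdim : ringKrullDim R = n) (x : Fin n → R)
    (hx : ∀ i, x i ∈ maximalIdeal R)
    (hxl : Module.length R (R ⧸ Ideal.span (Set.range x)) ≠ ⊤) (y : Fin n → S₁)
    (hy : ∀ i, y i ∈ maximalIdeal S₁)
    (hyl : Module.length S₁ (S₁ ⧸ Ideal.span (Set.range y)) ≠ ⊤) :
    kchi y (S₁ ⊗[A] (RA ρ)) = ((p ^ e : ℕ) : ℤ) ^ n * kchi y S₁ := by
  obtain ⟨hlocρ, hfinρ, hres⟩ := relFrob_basic p H
  have hq : 1 ≤ p ^ e := Nat.one_le_pow _ _ (Fact.out : p.Prime).pos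
  have hfl : Module.Flat R A := H.flat
  have hRS : Module.Flat R S₁ := Module.Flat.trans R A S₁
  have hlocRA : IsLocalHom (algebraMap R A) :=
    ((IsLocalRing.local_hom_TFAE (algebraMap R A)).out 0 2).mpr H.max.ge
  have hlocRS : IsLocalHom (algebraMap R S₁) := by
    rw [IsScalarTower.algebraMap_eq R A S₁]
    infer_instance
  have hfibR := exists_pow_le_fibre (A := R) (S := S₁) hdim y hy hyl
  have hfibA : ∃ s, maximalIdeal S₁ ^ s ≤ (maximalIdeal A).map (algebraMap A S₁) := by
    obtain ⟨s, hs⟩ := hfibR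
    refine ⟨s, ?_⟩
    rw [H.max, Ideal.map_map, ← IsScalarTower.algebraMap_eq]
    exact hs
  have hfibRA : ∃ s, maximalIdeal A ^ s ≤ (maximalIdeal R).map (algebraMap R A) :=
    ⟨1, by rw [pow_one, H.max]⟩
  have hlocA : IsLocalHom (algebraMap A A) := by
    rw [Algebra.algebraMap_self]
    exact isLocalHom_id A
  have hfibAA : ∃ s, maximalIdeal A ^ s ≤ (maximalIdeal A).map (algebraMap A A) :=
    ⟨1, by rw [pow_one, Algebra.algebraMap_self, Ideal.map_id]⟩
  set xA : Fin n → A := fun j => algebraMap R A (x j) with hxA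
  have hxAm : ∀ i, xA i ∈ maximalIdeal A := fun i => by
    rw [H.max]
    exact Ideal.mem_map_of_mem _ (hx i)
  have hxAl : Module.length A (A ⧸ Ideal.span (Set.range xA)) ≠ ⊤ := by
    obtain ⟨s, hs⟩ := exists_pow_le_of_ell_ne_top (I := Ideal.span (Set.range x)) hxl
    refine ell_ne_top_of_pow_le (s := s) ?_
    rw [H.max, ← Ideal.map_pow]
    refine (Ideal.map_mono hs).trans ?_
    rw [Ideal.map_span, ← Set.range_comp]
    rfl
  have hxq : (fun j => ρ (xA j)) = fun j => x j ^ p ^ e := funext fun j => H.rf (x j)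
  have hlenx : ∀ (N : Type u) [AddCommGroup N] [Module R N] [Module.Finite R N],
      Module.length R (N ⧸ (Ideal.span (Set.range x) • (⊤ : Submodule R N))) ≠ ⊤ := by
    intro N _ _ _
    refine length_ne_top_of_killed hxl _ ?_
    intro r hr m
    obtain ⟨m, rfl⟩ := Submodule.Quotient.mk_surjective _ m
    rw [← Submodule.Quotient.mk_smul, Submodule.Quotient.mk_eq_zero]
    exact Submodule.smul_mem_smul hr Submodule.mem_top
  have hlen1 : Module.length A (A ⧸ (maximalIdeal R).map (algebraMap R A)) = (1 : ℕ) := by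
    rw [← H.max, Nat.cast_one, Module.length_eq_one_iff]
    exact isSimpleModule_iff_isCoatom.mpr (maximalIdeal.isMaximal A).out
  have key : ∀ (N : Type u) [AddCommGroup N] [Module R N] [Module.Finite R N],
      kchi y (S₁ ⊗[A] (RM ρ N)) = ((p ^ e : ℕ) : ℤ) ^ n * kchi y (S₁ ⊗[R] N) := by
    intro N _ _ hN
    refine IsNoetherianRing.induction_on_isQuotientEquivQuotientPrime R hN
      (motive := fun N _ _ _ => kchi y (S₁ ⊗[A] (RM ρ N)) =
        ((p ^ e : ℕ) : ℤ) ^ n * kchi y (S₁ ⊗[R] N)) ?_ ?_ ?_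
    · intro N _ _ _ hs
      have hs' : Subsingleton (RM ρ N) := hs
      have := akchi_finite ρ N
      have hI : (⊤ : Ideal R) ≤ Module.annihilator R N := by
        rw [Module.annihilator_eq_top_iff.mpr inferInstance]
      have hI' : (⊤ : Ideal A) ≤ Module.annihilator A (RM ρ N) := by
        rw [Module.annihilator_eq_top_iff.mpr inferInstance]
      have hd : ringKrullDim (R ⧸ (⊤ : Ideal R)) < n := by
        have hs : Subsingleton (R ⧸ (⊤ : Ideal R)) := Ideal.Quotient.subsingleton_iff.mpr rfl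
        rw [ringKrullDim_eq_bot_of_subsingleton]
        exact WithBot.bot_lt_coe _
      have hd' : ringKrullDim (A ⧸ (⊤ : Ideal A)) < n := by
        have hs : Subsingleton (A ⧸ (⊤ : Ideal A)) := Ideal.Quotient.subsingleton_iff.mpr rfl
        rw [ringKrullDim_eq_bot_of_subsingleton]
        exact WithBot.bot_lt_coe _
      rw [psi_eq_zero y hfibR hy hyl N ⊤ hI hd, psi_eq_zero y hfibA hy hyl _ ⊤ hI' hd', mul_zero]
    · intro N _ _ _ P f
      have := akchi_finite ρ N
      have hfin1 := akchi_finite ρ (R ⧸ P.1)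
      let f' : RM ρ N ≃ₗ[A] RM ρ (R ⧸ P.1) :=
        LinearEquiv.ofBijective (akchi_map ρ f.toLinearMap) f.bijective
      rw [psi_congr y f, psi_congr y f']
      have hPp : P.1.IsPrime := P.2
      set J : Ideal A := P.1.map (algebraMap R A) with hJdef
      have hJ1 : J ≤ Module.annihilator A (RM ρ (R ⧸ P.1)) := by
        rw [hJdef, Ideal.map_le_iff_le_comap]
        intro a ha
        rw [Ideal.mem_comap, Module.mem_annihilator]
        intro z
        have h1 : a ^ p ^ e ∈ P.1 := Ideal.pow_mem_of_mem _ ha _ (by omega)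
        have h2 : a ^ p ^ e ∈ Module.annihilator R (R ⧸ P.1) := by
          rw [Ideal.annihilator_quotient]
          exact h1
        have h3 := Module.mem_annihilator.mp h2 z
        rw [← H.rf] at h3
        exact h3
      have hle : ringKrullDim (R ⧸ P.1) ≤ n := hdim ▸ ringKrullDim_quotient_le P.1
      rcases hle.lt_or_eq with hlt | heq
      · rw [psi_eq_zero y hfibR hy hyl (R ⧸ P.1) P.1 (by rw [Ideal.annihilator_quotient]) hlt,
          psi_eq_zero y hfibA hy hyl _ J hJ1 (dim_quot_lt hfibRA P.1 hlt), mul_zero]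
      · -- the prime over `P`
        have hQ : ∀ Q : Ideal A, Q.IsPrime → J ≤ Q →
            Q = P.1.comap ρ ∨ ringKrullDim (A ⧸ Q) < n := by
          intro Q hQp hJQ
          have hPQ : P.1 ≤ Q.comap (algebraMap R A) := Ideal.map_le_iff_le_comap.mp hJQ
          rcases eq_or_lt_of_le hPQ with h | h
          · left
            ext a
            rw [Ideal.mem_comap, h, Ideal.mem_comap, H.fr]
            exact ⟨fun ha => Ideal.pow_mem_of_mem _ ha _ (by omega),
              fun ha => hQp.mem_of_pow_mem _ ha⟩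
          · right
            have h1 := dim_quot_prime_lt h hle
            have h2 := dim_quot_lt hfibRA _ h1
            refine lt_of_le_of_lt ?_ h2
            exact ringKrullDim_le_of_surjective (Ideal.Quotient.factor Ideal.map_comap_le)
              (Ideal.Quotient.factor_surjective _)
        have hJ2 : J ≤ Module.annihilator A (A ⊗[R] (R ⧸ P.1)) := by
          rw [hJdef, Ideal.map_le_iff_le_comap]
          intro a ha
          rw [Ideal.mem_comap, Module.mem_annihilator]
          intro z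
          rw [algebraMap_smul]
          have ha' : a ∈ Module.annihilator R (R ⧸ P.1) := by
            rw [Ideal.annihilator_quotient]
            exact ha
          induction z with
          | zero => rw [smul_zero]
          | add u v hu hv => rw [smul_add, hu, hv, add_zero]
          | tmul s v =>
            rw [← TensorProduct.tmul_smul, (Module.mem_annihilator.mp ha') v,
              TensorProduct.tmul_zero]
        obtain ⟨r1, h11, h12⟩ := akchi_rho y xA hfibA hy hyl hfibAA hxAm hxAl J
          (P.1.comap ρ) hQ (RM ρ (R ⧸ P.1)) inferInstance hJ1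
        obtain ⟨r2, h21, h22⟩ := akchi_rho y xA hfibA hy hyl hfibAA hxAm hxAl J
          (P.1.comap ρ) hQ (A ⊗[R] (R ⧸ P.1)) inferInstance hJ2
        rw [kchi_congr xA (TensorProduct.lid A _)] at h12 h22
        have e1 : kchi xA (RM ρ (R ⧸ P.1)) = ((p ^ e : ℕ) : ℤ) ^ n * kchi x (R ⧸ P.1) := by
          rw [← kchi_pow x hx _ hq (R ⧸ P.1) (hlenx _)]
          unfold kchi
          refine Finset.sum_congr rfl fun i _ => ?_
          rw [akchi_kk ρ hres, hxq]
        have e2 : kchi xA (A ⊗[R] (R ⧸ P.1)) = kchi x (R ⧸ P.1) := by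
          unfold kchi
          refine Finset.sum_congr rfl fun i _ => ?_
          rw [hxA, kk_flat x (R ⧸ P.1) 1 hlen1 i (kk_ne_top x _ (hlenx _) i), Nat.cast_one,
            one_mul]
        rw [e1] at h12
        rw [e2] at h22
        have h3 : 0 < kchi x (R ⧸ P.1) := by
          refine kchi_pos x hx P.1 ?_ heq
          exact ne_top_of_le_ne_top hxl (Module.length_le_of_surjective
            (Submodule.factor le_sup_right) (Submodule.factor_surjective _))
        have h4 : kchi xA (A ⊗[A] (A ⧸ P.1.comap ρ)) ≠ 0 := by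
          intro h0
          rw [h0, mul_zero] at h22
          exact h3.ne' h22
        have h5 : r1 = ((p ^ e : ℕ) : ℤ) ^ n * r2 := by
          refine mul_right_cancel₀ h4 ?_
          rw [← h12, mul_assoc, ← h22]
        rw [h11, h5, mul_assoc, ← h21]
        congr 1
        exact kchi_congr y (TensorProduct.AlgebraTensorModule.cancelBaseChange R A S₁ S₁ (R ⧸ P.1))
    · intro N₁ _ _ _ N₂ _ _ _ N₃ _ _ _ f g hf hg hfg h1 h3
      have := akchi_finite ρ N₁
      have := akchi_finite ρ N₂
      have := akchi_finite ρ N₃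
      rw [psi_add y hyl (akchi_map ρ f) (akchi_map ρ g) hf hg hfg, h1, h3,
        psi_add y hyl f g hf hg hfg, mul_add]
  let φ : RA ρ ≃ₗ[A] RM ρ R :=
    { toFun := fun a => a
      invFun := fun a => a
      map_add' := fun _ _ => rfl
      map_smul' := fun _ _ => rfl
      left_inv := fun _ => rfl
      right_inv := fun _ => rfl }
  rw [psi_congr y φ, key R, kchi_congr y (TensorProduct.AlgebraTensorModule.rid R S₁ S₁)]

end RelF

end Vale.Agent.P202.CharP.ArbK
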