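import Vale.Agent.P202.CharP.ArbK.Defs

/-!
P202-AK-10: locality of `S₁ ⊗[A] RA ρ`.
-/

set_option linter.unusedSectionVars false

namespace Vale.Agent.P202.CharP.ArbK

open IsLocalRing TensorProduct

universe u

section RelF

variable (p : ℕ) [Fact p.Prime] {e : ℕ} {R A : Type u} [CommRing R] [IsLocalRing R]
  [IsNoetherianRing R] [CharP R p] [CommRing A] [IsLocalRing A] [IsNoetherianRing A]
  [CharP A p] [Algebra R A] {ρ : A →+* R} (H : RelFrob p e R A ρ)

include H

variable {S₁ : Type u} [CommRing S₁] [IsLocalRing S₁] [IsNoetherianRing S₁] [Algebra A S₁]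
  [Algebra R S₁] [IsScalarTower R A S₁] [IsLocalHom (algebraMap A S₁)] [Module.Flat A S₁]

/-- `q`-th powers of elements of `S₁ ⊗ RA ρ` come from `S₁`. -/
lemma pow_mem_range_RA [CharP S₁ p] [CharP (S₁ ⊗[A] (RA ρ)) p] (b : S₁ ⊗[A] (RA ρ)) :
    ∃ s : S₁, b ^ p ^ e = algebraMap S₁ (S₁ ⊗[A] (RA ρ)) s := by
  induction b using TensorProduct.induction_on with
  | zero => exact ⟨0, by rw [map_zero, zero_pow (pow_ne_zero e (Fact.out : p.Prime).ne_zero)]⟩
  | tmul s r =>
    refine ⟨s ^ p ^ e * algebraMap A S₁ (algebraMap R A (show R from r)), ?_⟩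
    rw [Algebra.TensorProduct.tmul_pow]
    have h1 : r ^ p ^ e = algebraMap A (RA ρ) (algebraMap R A (show R from r)) :=
      (H.rf (show R from r)).symm
    rw [h1, Algebra.TensorProduct.algebraMap_apply, Algebra.algebraMap_self, RingHom.id_apply,
      Algebra.algebraMap_eq_smul_one (R := A) (A := RA ρ), TensorProduct.tmul_smul,
      TensorProduct.smul_tmul', Algebra.smul_def, mul_comm]
  | add b c hb hc =>
    obtain ⟨s, hs⟩ := hb
    obtain ⟨s', hs'⟩ := hc
    exact ⟨s + s', by rw [add_pow_char_pow, hs, hs', map_add]⟩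

/-- TASK AK-10: locality of the tensor product. -/
theorem isLocalRing_tensor_RA : IsLocalRing (S₁ ⊗[A] (RA ρ)) := by
  have hfin : Module.Finite A (RA ρ) := H.fin
  have hff : Module.FaithfullyFlat A S₁ :=
    Module.FaithfullyFlat.of_flat_of_isLocalHom (A := A) (B := S₁)
  have hSp : CharP S₁ p :=
    charP_of_injective_algebraMap (FaithfulSMul.algebraMap_injective A S₁) p
  have hnt : Nontrivial (RA ρ) := inferInstanceAs (Nontrivial R)
  have hnt' : Nontrivial (S₁ ⊗[A] (RA ρ)) := Module.FaithfullyFlat.lTensor_nontrivial A S₁ _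
  have hTp : CharP (S₁ ⊗[A] (RA ρ)) p := by
    rw [CharP.charP_iff_prime_eq_zero (Fact.out : p.Prime)]
    rw [← map_natCast (algebraMap S₁ (S₁ ⊗[A] (RA ρ))), CharP.cast_eq_zero, map_zero]
  have hq : p ^ e ≠ 0 := pow_ne_zero e (Fact.out : p.Prime).ne_zero
  have key : ∀ s : S₁, IsUnit (algebraMap S₁ (S₁ ⊗[A] (RA ρ)) s) → IsUnit s := by
    intro s hs
    by_contra h
    have hm : s ∈ maximalIdeal S₁ := (mem_maximalIdeal _).mpr h
    have h1 : (⊤ : Submodule S₁ (S₁ ⊗[A] (RA ρ))) ≤ maximalIdeal S₁ • ⊤ := by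
      intro b _
      obtain ⟨u, hu⟩ := hs
      have h2 : b = s • ((↑u⁻¹ : S₁ ⊗[A] (RA ρ)) * b) := by
        rw [Algebra.smul_def, ← hu, ← mul_assoc, Units.mul_inv, one_mul]
      rw [h2]
      exact Submodule.smul_mem_smul hm Submodule.mem_top
    have h3 : (⊤ : Submodule S₁ (S₁ ⊗[A] (RA ρ))) = ⊥ :=
      Submodule.eq_bot_of_le_smul_of_le_jacobson_bot (maximalIdeal S₁) _
        (Module.Finite.fg_top) h1 (maximalIdeal_le_jacobson _)
    exact not_subsingleton (S₁ ⊗[A] (RA ρ)) ((Submodule.subsingleton_iff S₁).mp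
      (subsingleton_of_bot_eq_top h3.symm))
  refine IsLocalRing.of_nonunits_add fun b c hb hc => ?_
  obtain ⟨s, hs⟩ := pow_mem_range_RA p H b
  obtain ⟨s', hs'⟩ := pow_mem_range_RA p H c
  rw [mem_nonunits_iff] at hb hc ⊢
  have hs1 : s ∈ nonunits S₁ := by
    rw [mem_nonunits_iff]
    intro h
    have := h.map (algebraMap S₁ (S₁ ⊗[A] (RA ρ)))
    rw [← hs, isUnit_pow_iff hq] at this
    exact hb this
  have hs2 : s' ∈ nonunits S₁ := by
    rw [mem_nonunits_iff]
    intro h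
    have := h.map (algebraMap S₁ (S₁ ⊗[A] (RA ρ)))
    rw [← hs', isUnit_pow_iff hq] at this
    exact hc this
  intro h
  have h1 : (b + c) ^ p ^ e = algebraMap S₁ (S₁ ⊗[A] (RA ρ)) (s + s') := by
    rw [add_pow_char_pow, hs, hs', map_add]
  have h2 := h.pow (p ^ e)
  rw [h1] at h2
  exact IsLocalRing.nonunits_add hs1 hs2 (key _ h2)

end RelF

end Vale.Agent.P202.CharP.ArbK
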