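import Vale.Agent.P202.CharP.ArbK.Datum
import Vale.Agent.P202.CharP.ArbK.KchiRel
import Vale.Agent.P202.CharP.ArbK.LocTensor
import Vale.Agent.P202.CharP.GenFinal
import Vale.Agent.P202.CharP.Gen3.E1
import Vale.Agent.P202.CharP.TheoremA
import Vale.Agent.P202.CharP.Gen3.Ineq

/-!
P202-AK-13: Theorem B for arbitrary residue fields.
-/

set_option linter.all false

namespace Vale.Agent.P202.CharP.ArbK

open Submodule TensorProduct IsLocalRing Filter Topology

universe u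

namespace ThmB

lemma span_smul_top {B : Type*} [CommRing B] (I : Ideal B) : (I • (⊤ : Submodule B B)) = I := by
  rw [smul_eq_mul, Ideal.mul_top]

/-- the inner limit. -/
lemma le_of_pow_growth (p : ℕ) (hp : 2 ≤ p) (n : ℕ) (a b : ℤ) (D : ℕ)
    (h : ∀ e : ℕ, a * ((p ^ e : ℕ) : ℤ) ^ (n + 1) - D * ((p ^ e : ℕ) : ℤ) ^ n ≤
      b * ((p ^ e : ℕ) : ℤ) ^ (n + 1)) : a ≤ b := by
  by_contra hab
  have h1 : 1 ≤ a - b := by omega
  have h2 := h (D + 1)
  set t : ℤ := ((p ^ (D + 1) : ℕ) : ℤ) with ht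
  have ht0 : (D : ℤ) < t := by
    have h3 : D + 1 < p ^ (D + 1) := Nat.lt_pow_self (by omega)
    rw [ht]
    exact_mod_cast (by omega : D < p ^ (D + 1))
  have ht1 : 0 < t := lt_of_le_of_lt (by positivity) ht0
  have h4 : 0 < t ^ n := by positivity
  have h5 : t ^ (n + 1) ≤ (a - b) * t ^ (n + 1) := le_mul_of_one_le_left (by positivity) h1
  have h6 : (D : ℤ) * t ^ n < t * t ^ n := mul_lt_mul_of_pos_right ht0 h4
  have h7 : t ^ (n + 1) = t * t ^ n := by ring
  nlinarith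

lemma mul_ne_top {a b : ℕ∞} (ha : a ≠ ⊤) (hb : b ≠ ⊤) : a * b ≠ ⊤ := by
  obtain ⟨m, rfl⟩ := ENat.ne_top_iff_exists.mp ha
  obtain ⟨n, rfl⟩ := ENat.ne_top_iff_exists.mp hb
  rw [← Nat.cast_mul]
  exact ENat.natCast_ne_top _

/-- the objects over the flat extension. -/
theorem transfer {S S₁ : Type u} [CommRing S] [IsLocalRing S] [IsNoetherianRing S]
    [CommRing S₁] [IsLocalRing S₁] [IsNoetherianRing S₁] [Algebra S S₁] [Module.Flat S S₁]
    [IsLocalHom (algebraMap S S₁)] {n : ℕ} (y : Fin n → S)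
    (hyl : Module.length S (S ⧸ Ideal.span (Set.range y)) ≠ ⊤) (w : ℕ)
    (hw : Module.length S₁ (S₁ ⧸ (maximalIdeal S).map (algebraMap S S₁)) = w) (I : Ideal S)
    (hI : Module.length S (S ⧸ I) ≠ ⊤) (t : ℤ → ℕ) (ht : ∀ i, kk y (S ⧸ I) i = t i) :
    Module.length S₁ (S₁ ⧸ I.map (algebraMap S S₁)) ≠ ⊤ ∧
    Module.length S₁ (S₁ ⧸ Ideal.span (Set.range fun j => algebraMap S S₁ (y j))) ≠ ⊤ ∧
    (∀ i, kk (fun j => algebraMap S S₁ (y j)) (S₁ ⧸ I.map (algebraMap S S₁)) i =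
      ((w * t i : ℕ) : ℕ∞)) ∧
    kchi (fun j => algebraMap S S₁ (y j)) S₁ = (w : ℤ) * kchi y S := by
  have hySt : Module.length S (S ⧸ (Ideal.span (Set.range y) • (⊤ : Submodule S S))) ≠ ⊤ := by
    rw [span_smul_top]; exact hyl
  have hS : ∀ i, kk y S i ≠ ⊤ := fun i => kk_ne_top y S hySt i
  have h1 : ∀ i, kk (fun j => algebraMap S S₁ (y j)) S₁ i = w * kk y S i := by
    intro i
    rw [← kk_flat (S₁ := S₁) y S w hw i (hS i)]
    exact kk_congr _ (AlgebraTensorModule.rid S S₁ S₁).symm i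
  refine ⟨?_, ?_, ?_, ?_⟩
  · rw [(Algebra.TensorProduct.quotIdealMapEquivTensorQuot S₁ I).toLinearEquiv.length_eq,
      IsLocalRing.length_baseChange, hw]
    exact mul_ne_top hI (ENat.natCast_ne_top _)
  · have h2 := kk_zero (fun j => algebraMap S S₁ (y j)) S₁
    rw [span_smul_top, h1] at h2
    rw [← h2]
    exact mul_ne_top (ENat.natCast_ne_top _) (hS 0)
  · intro i
    have h3 := kk_flat (S₁ := S₁) y (S ⧸ I) w hw i (by rw [ht]; exact ENat.natCast_ne_top _)
    rw [ht] at h3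
    rw [kk_congr _ (Algebra.TensorProduct.quotIdealMapEquivTensorQuot S₁ I).toLinearEquiv i, h3]
    push_cast
    rfl
  · unfold kchi
    rw [Finset.mul_sum]
    refine Finset.sum_congr rfl fun i _ => ?_
    rw [h1, ENat.toNat_mul, ENat.toNat_natCast]
    push_cast
    ring

end ThmB

open ThmB

open Gen3 in
/-- TASK AK-13: Theorem B for arbitrary residue fields. -/
theorem theoremB_all (p : ℕ) [Fact p.Prime] {R S : Type u} [CommRing R] [IsLocalRing R]
    [IsNoetherianRing R] [CharP R p] [CharP (ResidueField R) p]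
    [IsAdicComplete (maximalIdeal R) R] [Infinite (ResidueField R)]
    [CommRing S] [IsLocalRing S] [IsNoetherianRing S] [IsAdicComplete (maximalIdeal S) S]
    [Algebra R S] [IsLocalHom (algebraMap R S)] [Module.Flat R S] {r : ℕ}
    (hdim : ringKrullDim R = (r + 1 : ℕ)) (hdimS : ringKrullDim S = (r + 1 : ℕ))
    (x : Fin (r + 1) → R) (hx : ∀ i, x i ∈ maximalIdeal R) (s : ℕ)
    (hs : ∀ j, maximalIdeal R ^ (j + s) ≤ Ideal.span (Set.range x) ^ j)
    (y : Fin (r + 1) → S) (hy : ∀ i, y i ∈ maximalIdeal S)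
    (hyl : Module.length S (S ⧸ Ideal.span (Set.range y)) ≠ ⊤) (t0 lam : ℕ)
    (ht0 : Module.length S (S ⧸ ((maximalIdeal R).map (algebraMap R S) ⊔
      Ideal.span (Set.range y))) = t0)
    (hlam : emin x = lam) : (t0 : ℤ) * lam ≤ kchi y S := by
  -- the fibre
  have hT : Module.length S (S ⧸ (maximalIdeal R).map (algebraMap R S)) ≠ ⊤ :=
    ell_fibre_ne_top (R := R) (S := S) (by rw [hdim, hdimS])
  have hTy : ∀ i, kk y (S ⧸ (maximalIdeal R).map (algebraMap R S)) i ≠ ⊤ := by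
    intro i
    refine kk_ne_top y _ ?_ i
    rw [length_fibre_quot, ht0]
    exact ENat.natCast_ne_top _
  obtain ⟨t, ht⟩ : ∃ t : ℤ → ℕ, ∀ i, kk y (S ⧸ (maximalIdeal R).map (algebraMap R S)) i = t i :=
    ⟨fun i => (kk y (S ⧸ (maximalIdeal R).map (algebraMap R S)) i).toNat, fun i =>
      (ENat.natCast_toNat (hTy i)).symm⟩
  have ht00 : t 0 = t0 := by
    have h1 := kk_zero y (S ⧸ (maximalIdeal R).map (algebraMap R S))
    rw [length_fibre_quot, ht0, ht] at h1
    exact_mod_cast h1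
  have hout : ∀ i, (i < 0 ∨ ((r + 1 : ℕ) : ℤ) < i) → t i = 0 := by
    intro i hi
    have := kk_out y (S ⧸ (maximalIdeal R).map (algebraMap R S)) i hi
    rw [ht] at this
    exact_mod_cast this
  have hbig : ∀ i, ((r + 1 : ℕ) : ℤ) < i → t i = 0 := fun i hi => hout i (Or.inr hi)
  obtain ⟨τ, hτ⟩ : ∃ τ : ℕ, ∀ i, t i ≤ τ := by
    refine ⟨∑ i ∈ Finset.Icc (0 : ℤ) ((r + 1 : ℕ) : ℤ), t i, fun i => ?_⟩
    by_cases hi : i ∈ Finset.Icc (0 : ℤ) ((r + 1 : ℕ) : ℤ)
    · exact Finset.single_le_sum (f := t) (fun _ _ => Nat.zero_le _) hi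
    · rw [Finset.mem_Icc] at hi
      rw [hout i (by omega)]
      exact Nat.zero_le _
  obtain ⟨rr, hr, hr'⟩ := exists_ranks (r + 1) t hbig
  obtain ⟨C, hC⟩ := numerics r t0 rr
  obtain ⟨L, hL⟩ : ∃ L : ℕ, ((maximalIdeal R) ^ L).map (algebraMap R S) ≤
      Ideal.span (Set.range y) := by
    obtain ⟨L, hL⟩ := exists_pow_le_of_ell_ne_top (I := Ideal.span (Set.range y)) hyl
    refine ⟨L, ?_⟩
    rw [Ideal.map_pow]
    refine (Ideal.pow_right_mono ?_ L).trans hL
    rw [Ideal.map_le_iff_le_comap]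
    intro a ha
    exact (IsLocalRing.mem_maximalIdeal _).mpr fun h =>
      (IsLocalRing.mem_maximalIdeal _).mp ha (isUnit_of_map_unit (algebraMap R S) a h)
  have hxl : Module.length R (R ⧸ Ideal.span (Set.range x)) ≠ ⊤ := by
    have h1 := hs 1
    rw [pow_one] at h1
    exact ell_ne_top_of_pow_le h1
  have hxl' : Module.length R (R ⧸ (Ideal.span (Set.range x) • (⊤ : Submodule R R))) ≠ ⊤ := by
    rw [span_smul_top]
    exact hxl
  have hpf : PF x R := pf_of_length_ne_top hxl'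
  -- the Euler characteristic of `x`
  obtain ⟨K, hK⟩ := Int.eq_ofNat_of_zero_le (kchi_nonneg x hx R hxl')
  have hlamK : lam ≤ K := by
    have h1 := emin_le_kchi (Nat.succ_pos r) x hx hxl lam hlam
    rw [hK] at h1
    exact_mod_cast h1
  -- growth of the Koszul homology
  obtain ⟨D, hD⟩ := kk_growth (M := R) hpf
  have hD' : ∀ t : ℕ, 1 ≤ t → ∀ i : ℤ, 1 ≤ i →
      kk (fun l => x l ^ t) R i ≤ ((D * t ^ r : ℕ) : ℕ∞) := by
    intro t ht i hi
    have h1 := (hD t ht i).2 hi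
    obtain ⟨k, hk⟩ := ENat.ne_top_iff_exists.mp ((pf_pow hpf t).kk_ne_top i)
    rw [← hk] at h1 ⊢
    have h2 : t * k ≤ D * t ^ (r + 1) := by exact_mod_cast h1
    have h3 : k ≤ D * t ^ r := by
      refine Nat.le_of_mul_le_mul_left ?_ (Nat.pos_of_ne_zero (by omega : t ≠ 0))
      calc t * k ≤ D * t ^ (r + 1) := h2
        _ = t * (D * t ^ r) := by ring
    exact_mod_cast h3
  have hmain : (t0 : ℤ) * K ≤ kchi y S := by
    refine le_of_frobenius_growth p (Fact.out : p.Prime).two_le (r + 1) s (Nat.succ_pos r)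
      ((r + 1).factorial : ℤ) (by exact_mod_cast Nat.factorial_pos _) t0 K C (kchi y S)
      (by positivity) fun e₁ Q hQ he => ?_
    -- the constants of the geometric inequality
    choose Cm hCm using fun m : Fin (r + 1) =>
      gen3_ineq_unif.{u} p m Q hQ (p ^ e₁ * L)
    rw [Nat.add_sub_cancel]
    refine le_of_pow_growth p (Fact.out : p.Prime).two_le r _ _ ((∑ m, Cm m) * (τ * D))
      fun e₂ => ?_
    set e := e₁ + e₂ with hedef
    set q₂ := p ^ e₂ with hq₂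
    have hq₂pos : 1 ≤ q₂ := Nat.one_le_pow _ _ (Fact.out : p.Prime).pos
    -- the data
    obtain ⟨A, S₁, iA1, iA2, iA3, iA4, iS1, iS2, iS3, alg1, alg2, alg3, alg4, st1, st2, loc1,
      loc2, fl1, fl2, ρ, H, hwt⟩ := exists_datum p (S := S) x hx hxl e
    obtain ⟨w, hw⟩ := ENat.ne_top_iff_exists.mp hwt
    replace hw := hw.symm
    have hw0 : 0 < w := by
      rw [Nat.pos_iff_ne_zero]
      rintro rfl
      rw [Nat.cast_zero, Module.length_eq_zero_iff] at hw
      have h1 := (map_maximalIdeal_lt_top (algebraMap S S₁)).ne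
      exact h1 ((Ideal.Quotient.subsingleton_iff).mp hw)
    set y' : Fin (r + 1) → S₁ := fun j => algebraMap S S₁ (y j) with hy'
    have hI : (maximalIdeal A).map (algebraMap A S₁) =
        ((maximalIdeal R).map (algebraMap R S)).map (algebraMap S S₁) := by
      rw [H.max, Ideal.map_map, Ideal.map_map, ← IsScalarTower.algebraMap_eq,
        ← IsScalarTower.algebraMap_eq]
    obtain ⟨hT1, hyl1, ht1, hchi1⟩ := transfer (S₁ := S₁) y hyl w hw
      ((maximalIdeal R).map (algebraMap R S)) hT t ht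
    have hym1 : ∀ i, y' i ∈ maximalIdeal S₁ := fun i =>
      (IsLocalRing.mem_maximalIdeal _).mpr fun h => (IsLocalRing.mem_maximalIdeal _).mp (hy i)
        (isUnit_of_map_unit (algebraMap S S₁) (y i) h)
    obtain ⟨lhRA, finRA, resRA⟩ := relFrob_basic p H
    have hlocT := isLocalRing_tensor_RA p H (S₁ := S₁)
    set z : Fin (r + 1) → RA ρ := fun l => toRA ρ (x l ^ q₂) with hz
    have hkz : ∀ i, kk z (RA ρ) i = kk (fun l => x l ^ q₂) R i := fun i => rfl
    have hkcz : kchi z (RA ρ) = (q₂ : ℤ) ^ (r + 1) * K := by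
      have h1 : kchi z (RA ρ) = kchi (fun l => x l ^ q₂) R := rfl
      rw [h1, kchi_pow x hx q₂ hq₂pos R hxl', hK]
    have hpush : ∀ a ∈ maximalIdeal A, algebraMap A (RA ρ) a ∈
        Ideal.span (Set.range z) ^ Q := by
      refine push_RA p H x e₁ e₂ hedef Q ?_
      intro a ha
      rw [he]
      exact hs Q (Ideal.pow_mem_pow ha _)
    have hback : ∀ l, (1 : S₁) ⊗ₜ[A] (z l ^ (p ^ e₁ * L)) ∈
        (Ideal.span (Set.range y')).map (algebraMap S₁ (S₁ ⊗[A] (RA ρ))) := by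
      intro l
      have h1 : z l ^ (p ^ e₁ * L) =
          algebraMap A (RA ρ) (algebraMap R A (x l ^ L)) := by
        have h2 : algebraMap A (RA ρ) (algebraMap R A (x l ^ L)) =
            toRA ρ (ρ (algebraMap R A (x l ^ L))) := rfl
        rw [h2, H.rf, hz]
        change toRA ρ (x l ^ q₂) ^ (p ^ e₁ * L) = toRA ρ ((x l ^ L) ^ p ^ e)
        rw [← map_pow, ← pow_mul, ← pow_mul, hq₂, hedef, pow_add]
        congr 1
        ring_nf
      rw [h1, Algebra.algebraMap_eq_smul_one (R := A) (A := RA ρ), TensorProduct.tmul_smul,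
        TensorProduct.smul_tmul']
      have h3 : (algebraMap R A (x l ^ L)) • (1 : S₁) ∈ Ideal.span (Set.range y') := by
        rw [← Algebra.algebraMap_eq_smul_one, ← IsScalarTower.algebraMap_apply R A S₁,
          IsScalarTower.algebraMap_apply R S S₁]
        have h4 : algebraMap R S (x l ^ L) ∈ Ideal.span (Set.range y) :=
          hL (Ideal.mem_map_of_mem _ (Ideal.pow_mem_pow (hx l) L))
        have h5 := Ideal.mem_map_of_mem (algebraMap S S₁) h4
        rwa [Ideal.map_span, ← Set.range_comp] at h5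
      exact Ideal.mem_map_of_mem (algebraMap S₁ (S₁ ⊗[A] (RA ρ))) h3
    have hzm : ∀ l, z l ∈ maximalIdeal (RA ρ) := fun l =>
      Ideal.pow_mem_of_mem (maximalIdeal R) (hx l) _ hq₂pos
    have hin := fun m : Fin (r + 1) => hCm m A S₁ (by rw [hI]; exact hT1) y' hym1 hyl1
      (fun i => w * t i) (by rw [hI]; exact ht1)
      (fun i => (w : ℤ) * rr i) (fun i => by push_cast; rw [hr i]; ring)
      (fun i hi => by simp only [hr' i hi, mul_zero])
      (w * τ) (fun i => Nat.mul_le_mul_left _ (hτ i))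
      (RA ρ) z hzm hpush hback 1
      (by rw [resRA]; rfl) (q₂ ^ (r + 1) * K) (D * q₂ ^ r)
      (by rw [hkcz]; push_cast; ring)
      (fun i hi => by
        rw [hkz, Nat.cast_one, one_mul]
        exact hD' q₂ hq₂pos i hi)
    have hkRA : kchi y' (S₁ ⊗[A] (RA ρ)) = ((p ^ e : ℕ) : ℤ) ^ (r + 1) * (w * kchi y S) := by
      rw [kchi_RA p H hdim x hx hxl y' hym1 hyl1, hchi1]
    have hin' : ∀ m : Fin (r + 1), ((q₂ ^ (r + 1) * K : ℕ) : ℤ) * ((w : ℤ) *
        ((wc m Q 0 : ℤ) * t0 +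
          ∑ j ∈ Finset.Icc 1 (m : ℕ), (wc m Q j : ℤ) * rr (j + 1) -
          ∑ j ∈ Finset.Icc ((m : ℕ) + 1) r, (wc m Q j : ℤ) * rr (j + 1))) -
          (Cm m : ℤ) * ((w * τ : ℕ) * (D * q₂ ^ r : ℕ)) ≤
        (r.factorial : ℤ) * (((p ^ e : ℕ) : ℤ) ^ (r + 1) * (w * kchi y S)) := by
      intro m
      have h1 := hin m
      rw [hkRA] at h1
      refine le_trans (le_of_eq ?_) h1
      congr 2
      rw [mul_sub, mul_add, Finset.mul_sum, Finset.mul_sum, ht00]
      congr 1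
      · congr 1
        · push_cast; ring
        · exact Finset.sum_congr rfl fun j _ => by ring
      · exact Finset.sum_congr rfl fun j _ => by ring
    have hsum : ((q₂ ^ (r + 1) * K : ℕ) : ℤ) * ((w : ℤ) * (((r + 1).factorial : ℤ) *
        (Q : ℤ) ^ (r + 1) * t0 - (C : ℤ) * (Q : ℤ) ^ r)) -
        (∑ m, (Cm m : ℤ)) * ((w * τ : ℕ) * (D * q₂ ^ r : ℕ)) ≤
        ((r + 1).factorial : ℤ) * (((p ^ e : ℕ) : ℤ) ^ (r + 1) * (w * kchi y S)) := by
      calc ((q₂ ^ (r + 1) * K : ℕ) : ℤ) * ((w : ℤ) * (((r + 1).factorial : ℤ) *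
            (Q : ℤ) ^ (r + 1) * t0 - (C : ℤ) * (Q : ℤ) ^ r)) -
            (∑ m, (Cm m : ℤ)) * ((w * τ : ℕ) * (D * q₂ ^ r : ℕ)) ≤
            ((q₂ ^ (r + 1) * K : ℕ) : ℤ) * ((w : ℤ) * ∑ m : Fin (r + 1), ((wc m Q 0 : ℤ) * t0 +
            ∑ j ∈ Finset.Icc 1 (m : ℕ), (wc m Q j : ℤ) * rr (j + 1) -
            ∑ j ∈ Finset.Icc ((m : ℕ) + 1) r, (wc m Q j : ℤ) * rr (j + 1))) -
            (∑ m, (Cm m : ℤ)) * ((w * τ : ℕ) * (D * q₂ ^ r : ℕ)) :=
              sub_le_sub_right (mul_le_mul_of_nonneg_left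
                (mul_le_mul_of_nonneg_left (hC Q hQ) (by positivity)) (by positivity)) _
        _ ≤ ∑ m : Fin (r + 1), (r.factorial : ℤ) *
            (((p ^ e : ℕ) : ℤ) ^ (r + 1) * (w * kchi y S)) := by
            rw [Finset.mul_sum, Finset.mul_sum, Finset.sum_mul, ← Finset.sum_sub_distrib]
            exact Finset.sum_le_sum fun m _ => hin' m
        _ = ((r + 1).factorial : ℤ) * (((p ^ e : ℕ) : ℤ) ^ (r + 1) * (w * kchi y S)) := by
            rw [Finset.sum_const, Finset.card_univ, Fintype.card_fin, Nat.factorial_succ]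
            push_cast
            simp only [nsmul_eq_mul]
            push_cast
            ring
    have hw0' : (0 : ℤ) < w := by exact_mod_cast hw0
    refine le_of_mul_le_mul_left ?_ hw0'
    calc (w : ℤ) * (((K : ℤ) * (((r + 1).factorial : ℤ) * (Q : ℤ) ^ (r + 1) * t0 -
        (C : ℤ) * (Q : ℤ) ^ r)) * (q₂ : ℤ) ^ (r + 1) -
        (((∑ m, Cm m) * (τ * D) : ℕ) : ℤ) * (q₂ : ℤ) ^ r) =
        ((q₂ ^ (r + 1) * K : ℕ) : ℤ) * ((w : ℤ) * (((r + 1).factorial : ℤ) *
        (Q : ℤ) ^ (r + 1) * t0 - (C : ℤ) * (Q : ℤ) ^ r)) -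
        (∑ m, (Cm m : ℤ)) * ((w * τ : ℕ) * (D * q₂ ^ r : ℕ)) := by push_cast; ring
      _ ≤ _ := hsum
      _ = _ := by
          have h9 : p ^ e = p ^ e₁ * q₂ := by rw [hedef, pow_add]
          rw [h9]
          push_cast
          ring
  refine le_trans ?_ hmain
  exact_mod_cast Nat.mul_le_mul_left t0 hlamK

end Vale.Agent.P202.CharP.ArbK
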