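import Vale.Agent.P202.CharP.GenFinalC
import Vale.Agent.P202.CharP.ArbK.ThmB

/-!
P202: Theorem C (Theorem B for complete rings with arbitrary residue field).
-/

namespace Vale.Agent.P202.CharP.ArbK

universe u

/-- Theorem C. -/
theorem theoremC (p : ℕ) [Fact p.Prime] : TheoremC.{u} p := by
  intro A S _ _ _ _ _ _ _ _ _ _ _ _ _ _ r hdim hdimS x hx s hs y hy hyl t0 lam ht0 hlam
  exact theoremB_all p hdim hdimS x hx s hs y hy hyl t0 lam ht0 hlam

end Vale.Agent.P202.CharP.ArbK
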